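import Vale.Agent.P202.Reduce.CutDim
import Vale.Agent.P202.RingSide.Growth

/-!
# P202 Reduce: lengths for a finite algebra over a domain and for its localisations

With `f : V^ρ → S` injective and `c • S` inside its range, the colength of `I S` is at least
`ρ` times that of `I` up to the error `V/(c) + I`, and the Hilbert function of `S_P` is at most
`ρ` times that of `V_p` up to the same error.
-/

noncomputable section

namespace Vale.Agent.P202

open IsLocalRing

/-- Elements killed by `J` span a submodule of length at most their number times that of `A/J`. -/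
theorem length_span_range_le {A M ι : Type*} [CommRing A] [AddCommGroup M] [Module A M]
    [Fintype ι] (v : ι → M) (J : Ideal A) (hJ : ∀ i, ∀ a ∈ J, a • v i = 0) :
    Module.length A (Submodule.span A (Set.range v)) ≤
      (Fintype.card ι : ℕ∞) * Module.length A (A ⧸ J) := by
  classical
  let g : ι → (A ⧸ J) →ₗ[A] M := fun i =>
    J.liftQ (LinearMap.toSpanSingleton A M (v i)) fun a ha => by
      rw [LinearMap.mem_ker, LinearMap.toSpanSingleton_apply]
      exact hJ i a ha
  let φ : (ι → A ⧸ J) →ₗ[A] M := LinearMap.lsum A (fun _ : ι => A ⧸ J) A g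
  have hle : Submodule.span A (Set.range v) ≤ LinearMap.range φ := by
    rw [Submodule.span_le]
    rintro _ ⟨i, rfl⟩
    refine ⟨Pi.single i (Submodule.Quotient.mk 1), ?_⟩
    simp only [φ, LinearMap.lsum_apply, LinearMap.sum_apply]
    rw [Finset.sum_eq_single i (fun b _ hb => by simp [hb]) (by simp)]
    simp only [LinearMap.comp_apply, LinearMap.proj_apply, Pi.single_eq_same, g]
    exact one_smul A (v i)
  calc Module.length A (Submodule.span A (Set.range v))
      ≤ Module.length A (LinearMap.range φ) :=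
        Module.length_le_of_injective _ (Submodule.inclusion_injective hle)
    _ ≤ Module.length A (ι → A ⧸ J) :=
        Module.length_le_of_surjective _ φ.surjective_rangeRestrict
    _ = _ := by
        rw [Module.length_pi]
        simp

/-- Two layers of generators. -/
theorem length_span_union_le {A M ι κ : Type*} [CommRing A] [AddCommGroup M] [Module A M]
    [Fintype ι] [Fintype κ] (v : ι → M) (u : κ → M) (J₁ J₂ : Ideal A)
    (h₁ : ∀ i, ∀ a ∈ J₁, a • v i = 0)
    (h₂ : ∀ j, ∀ a ∈ J₂, a • u j ∈ Submodule.span A (Set.range v)) :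
    Module.length A (Submodule.span A (Set.range v ∪ Set.range u)) ≤
      (Fintype.card ι : ℕ∞) * Module.length A (A ⧸ J₁) +
        (Fintype.card κ : ℕ∞) * Module.length A (A ⧸ J₂) := by
  classical
  set F := Submodule.span A (Set.range v) with hF
  set B := Submodule.span A (Set.range v ∪ Set.range u) with hB
  have hFB : F ≤ B := Submodule.span_mono Set.subset_union_left
  have e : Module.length A B = Module.length A F + Module.length A (B.map F.mkQ) := by
    refine Module.length_eq_add_of_exact (Submodule.inclusion hFB)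
      ((F.mkQ.domRestrict B).codRestrict _ fun b => Submodule.mem_map_of_mem b.2)
      (Submodule.inclusion_injective _) ?_ ?_
    · rintro ⟨y, hy⟩
      obtain ⟨b, hb, rfl⟩ := Submodule.mem_map.1 hy
      exact ⟨⟨b, hb⟩, rfl⟩
    · intro b
      constructor
      · intro h
        have h' : F.mkQ (b : M) = 0 := congrArg Subtype.val h
        exact ⟨⟨b, (Submodule.Quotient.mk_eq_zero F).1 h'⟩, rfl⟩
      · rintro ⟨x, rfl⟩
        exact Subtype.ext ((Submodule.Quotient.mk_eq_zero F).2 x.2)
  have hmap : B.map F.mkQ ≤ Submodule.span A (Set.range fun j => F.mkQ (u j)) := by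
    rw [hB, Submodule.map_span, Submodule.span_le]
    rintro _ ⟨x, ⟨i, rfl⟩ | ⟨j, rfl⟩, rfl⟩
    · rw [show F.mkQ (v i) = 0 from
        (Submodule.Quotient.mk_eq_zero F).2 (Submodule.subset_span ⟨i, rfl⟩)]
      exact zero_mem _
    · exact Submodule.subset_span ⟨j, rfl⟩
  rw [e]
  refine add_le_add (length_span_range_le v J₁ h₁)
    ((Module.length_le_of_injective _ (Submodule.inclusion_injective hmap)).trans
      (length_span_range_le _ J₂ fun j a ha => ?_))
  rw [← map_smul]
  exact (Submodule.Quotient.mk_eq_zero F).2 (h₂ j a ha)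

/-- A finite module over a domain contains a free module with quotient killed by a nonzero
scalar. -/
theorem exists_free_cokilled (V M : Type*) [CommRing V] [IsDomain V] [AddCommGroup M] [Module V M]
    [Module.Finite V M] :
    ∃ (ρ : ℕ) (f : (Fin ρ → V) →ₗ[V] M) (c : V),
      c ≠ 0 ∧ Function.Injective f ∧ ∀ m, c • m ∈ LinearMap.range f := by
  classical
  obtain ⟨G, hG⟩ := (Module.Finite.fg_top : (⊤ : Submodule V M).FG)
  obtain ⟨s, hs, hmax⟩ := Finset.exists_max_image
    (G.powerset.filter fun s : Finset M => LinearIndepOn V id (s : Set M)) Finset.card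
    ⟨∅, by simp⟩
  rw [Finset.mem_filter, Finset.mem_powerset] at hs
  have hdep : ∀ g ∈ G, ∃ a : V, a ≠ 0 ∧ a • g ∈ Submodule.span V (s : Set M) := by
    intro g hg
    by_cases hgs : g ∈ s
    · exact ⟨1, one_ne_zero, by rw [one_smul]; exact Submodule.subset_span hgs⟩
    · by_contra hcon
      push Not at hcon
      have hins : LinearIndepOn V id ((insert g s : Finset M) : Set M) := by
        rw [Finset.coe_insert]
        refine LinearIndepOn.id_insert' hs.2 fun a ha => ?_
        by_contra h0
        exact hcon a h0 ha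
      have h1 := hmax (insert g s) (Finset.mem_filter.2
        ⟨Finset.mem_powerset.2 (Finset.insert_subset hg hs.1), hins⟩)
      rw [Finset.card_insert_of_notMem hgs] at h1
      omega
  choose a ha hmem using hdep
  let v : Fin s.card → M := fun i => (s.equivFin.symm i : M)
  have hv : LinearIndependent V v :=
    (LinearIndependent.comp hs.2 _ s.equivFin.symm.injective :)
  have hrange : Set.range v = (s : Set M) := by
    ext x
    exact ⟨fun ⟨i, hi⟩ => hi ▸ (s.equivFin.symm i).2,
      fun hx => ⟨s.equivFin ⟨x, hx⟩, by simp [v]⟩⟩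
  refine ⟨s.card, Fintype.linearCombination V v, ∏ g ∈ G.attach, a g g.2,
    Finset.prod_ne_zero_iff.2 fun g _ => ha g g.2,
    linearIndependent_iff_injective_fintypeLinearCombination.1 hv, fun m => ?_⟩
  rw [Fintype.range_linearCombination, hrange]
  have hm : m ∈ Submodule.span V (G : Set M) := by rw [hG]; exact Submodule.mem_top
  induction hm using Submodule.span_induction with
  | mem g hg =>
    rw [← Finset.mul_prod_erase G.attach (fun g => a g g.2) (Finset.mem_attach G ⟨g, hg⟩),
      mul_comm, mul_smul]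
    exact Submodule.smul_mem _ _ (hmem g hg)
  | zero => simp
  | add x y _ _ hx hy =>
    rw [smul_add]
    exact add_mem hx hy
  | smul r x _ hx =>
    rw [smul_comm]
    exact Submodule.smul_mem _ r hx

/-- The colength of `I S` from below. -/
theorem mul_length_le_add {V S : Type*} [CommRing V] [AddCommGroup S] [Module V S] {ρ : ℕ}
    (f : (Fin ρ → V) →ₗ[V] S) (c : V) (hf : Function.Injective f)
    (hc : ∀ s, c • s ∈ LinearMap.range f) (I : Ideal V) :
    (ρ : ℕ∞) * Module.length V (V ⧸ I) ≤ Module.length V (S ⧸ (I • ⊤ : Submodule V S)) +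
      (ρ : ℕ∞) * Module.length V (V ⧸ (Ideal.span {c} ⊔ I)) := by
  classical
  let h₀ : S →ₗ[V] (Fin ρ → V) := (LinearEquiv.ofInjective f hf).symm.toLinearMap ∘ₗ
    LinearMap.codRestrict (LinearMap.range f) (c • LinearMap.id) hc
  have hh₀ : ∀ s, f (h₀ s) = c • s := fun s => by
    simp [h₀]
  let pr : (Fin ρ → V) →ₗ[V] (Fin ρ → V ⧸ I) :=
    LinearMap.pi fun i => I.mkQ.comp (LinearMap.proj i)
  let h₁ : (S ⧸ (I • ⊤ : Submodule V S)) →ₗ[V] (Fin ρ → V ⧸ I) :=
    Submodule.liftQ _ (pr ∘ₗ h₀) (by
      refine Submodule.smul_le.2 fun a ha s _ => ?_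
      rw [LinearMap.mem_ker, map_smul]
      funext i
      exact (Submodule.Quotient.mk_eq_zero I).2 (Ideal.mul_mem_right _ _ ha))
  let ψ : (Fin ρ → V ⧸ I) →ₗ[V] (Fin ρ → V ⧸ (Ideal.span {c} ⊔ I)) :=
    LinearMap.pi fun i => (Submodule.factor le_sup_right).comp (LinearMap.proj i)
  have hψ : Function.Surjective ψ := fun y => by
    choose x hx using fun i => Submodule.factor_surjective
      (p := I) (p' := Ideal.span {c} ⊔ I) le_sup_right (y i)
    exact ⟨x, funext hx⟩
  have hker : LinearMap.ker ψ ≤ LinearMap.range h₁ := by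
    intro x hx
    choose v hv using fun i => Submodule.mkQ_surjective I (x i)
    have hmem : ∀ i, ∃ a, v i - c * a ∈ I := by
      intro i
      have h1 : Submodule.factor le_sup_right (x i) = 0 := congrFun (LinearMap.mem_ker.1 hx) i
      rw [← hv i] at h1
      obtain ⟨y, hy, z, hz, hyz⟩ :=
        Submodule.mem_sup.1 ((Submodule.Quotient.mk_eq_zero _).1 h1)
      obtain ⟨a, rfl⟩ := Ideal.mem_span_singleton'.1 hy
      exact ⟨a, (show v i - c * a = z by rw [show v i = a * c + z from hyz.symm]; ring) ▸ hz⟩
    choose a ha using hmem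
    refine ⟨Submodule.Quotient.mk (f a), funext fun i => ?_⟩
    show I.mkQ (h₀ (f a) i) = x i
    rw [← hv i, show h₀ (f a) = c • a from hf (by rw [hh₀, map_smul]), Pi.smul_apply, smul_eq_mul,
      eq_comm, Submodule.mkQ_apply, Submodule.mkQ_apply, Submodule.Quotient.eq]
    exact ha i
  have e := Module.length_eq_add_of_exact (LinearMap.ker ψ).subtype ψ
    (Submodule.subtype_injective _) hψ (LinearMap.exact_subtype_ker_map ψ)
  rw [Module.length_pi, Module.length_pi] at e
  have hr : Module.length V (LinearMap.ker ψ) ≤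
      Module.length V (S ⧸ (I • ⊤ : Submodule V S)) :=
    (Module.length_le_of_injective _ (Submodule.inclusion_injective hker)).trans
      (Module.length_le_of_surjective _ h₁.surjective_rangeRestrict)
  have h2 := e.le.trans (add_le_add hr le_rfl)
  simpa [ENat.card_eq_coe_fintype_card] using h2

/-- The error term grows more slowly. -/
theorem exists_length_cut_le {B : Type*} [CommRing B] [IsNoetherianRing B] [IsLocalRing B]
    [IsDomain B] {c : B} (hc : c ≠ 0) {h : ℕ} (hh : dimNat B ≤ h) :
    ∃ C : ℕ, ∀ N : ℕ, Module.length B (B ⧸ (Ideal.span {c} ⊔ maximalIdeal B ^ N)) * (N + 1 : ℕ) ≤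
      (C : ℕ∞) * ((N + 1) ^ h : ℕ) := by
  by_cases hu : IsUnit c
  · refine ⟨0, fun N => ?_⟩
    rw [Ideal.span_singleton_eq_top.2 hu, top_sup_eq, Module.length_eq_zero, zero_mul]
    exact zero_le
  let J : Ideal B := Ideal.span {c}
  have hJ : J ≠ ⊤ := fun h' => hu (Ideal.span_singleton_eq_top.1 h')
  have : Nontrivial (B ⧸ J) := Ideal.Quotient.nontrivial_iff.2 hJ
  have : IsLocalRing (B ⧸ J) :=
    IsLocalRing.of_surjective' (Ideal.Quotient.mk J) Ideal.Quotient.mk_surjective
  have hdim : dimNat (B ⧸ J) + 1 ≤ h := by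
    have h1 := ringKrullDim_quotient_succ_le_of_forall_notMem (r := c) (fun q hq hcq => hc (by
      rw [IsDomain.minimalPrimes_eq_singleton_bot, Set.mem_singleton_iff] at hq
      simpa [hq] using hcq))
    rw [coe_dimNat B, coe_dimNat (B ⧸ J)] at h1
    have h2 : dimNat (B ⧸ J) + 1 ≤ dimNat B := by exact_mod_cast h1
    omega
  obtain ⟨C, hC⟩ := exists_qlen_pow_le (A := B ⧸ J)
  refine ⟨C, fun N => ?_⟩
  let g : B →ₗ[B] (B ⧸ J) ⧸ maximalIdeal (B ⧸ J) ^ N :=
    ((maximalIdeal (B ⧸ J) ^ N).mkQ.restrictScalars B).comp (Algebra.linearMap B (B ⧸ J))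
  have hg : Function.Surjective g :=
    (Submodule.mkQ_surjective _).comp Ideal.Quotient.mk_surjective
  have hker : LinearMap.ker g = J ⊔ maximalIdeal B ^ N := by
    ext b
    rw [LinearMap.mem_ker]
    show Submodule.Quotient.mk (Ideal.Quotient.mk J b) = 0 ↔ _
    rw [Submodule.Quotient.mk_eq_zero,
      ← IsLocalRing.map_maximalIdeal_of_surjective (Ideal.Quotient.mk J)
        Ideal.Quotient.mk_surjective, ← Ideal.map_pow, ← Ideal.mem_comap,
      Ideal.comap_map_of_surjective' _ Ideal.Quotient.mk_surjective, Ideal.mk_ker, sup_comm]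
  have e : Module.length B (B ⧸ (J ⊔ maximalIdeal B ^ N)) =
      (qlen (maximalIdeal (B ⧸ J) ^ N) : ℕ∞) := by
    rw [coe_qlen (le_refl (maximalIdeal (B ⧸ J) ^ N)),
      ← Module.length_eq_of_surjective (S := B) (R := B ⧸ J)
        (M := (B ⧸ J) ⧸ maximalIdeal (B ⧸ J) ^ N) Ideal.Quotient.mk_surjective,
      ((Submodule.quotEquivOfEq _ _ hker.symm).trans
        (g.quotKerEquivOfSurjective hg)).length_eq]
  rw [e, ← Nat.cast_mul, ← Nat.cast_mul, Nat.cast_le]
  calc qlen (maximalIdeal (B ⧸ J) ^ N) * (N + 1)
      ≤ C * (N + 1) ^ dimNat (B ⧸ J) * (N + 1) := Nat.mul_le_mul_right _ (hC N)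
    _ = C * (N + 1) ^ (dimNat (B ⧸ J) + 1) := by rw [mul_assoc, pow_succ]
    _ ≤ C * (N + 1) ^ h := Nat.mul_le_mul_left _ (Nat.pow_le_pow_right (by omega) hdim)

/-- The Hilbert function of `S_P` from above. -/
theorem exists_length_atPrime_le {V S : Type*} [CommRing V] [IsNoetherianRing V] [CommRing S]
    [Algebra V S] [Module.Finite V S] {ρ : ℕ} (f : (Fin ρ → V) →ₗ[V] S) (c : V)
    (hc : ∀ s, c • s ∈ LinearMap.range f) (P : Ideal S) [P.IsPrime] (p : Ideal V) [p.IsPrime]
    (hp : p = P.comap (algebraMap V S)) :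
    ∃ μ : ℕ, ∀ N : ℕ, Module.length (Localization.AtPrime P)
        (Localization.AtPrime P ⧸ maximalIdeal (Localization.AtPrime P) ^ N) ≤
      (ρ : ℕ∞) * Module.length (Localization.AtPrime p)
          (Localization.AtPrime p ⧸ maximalIdeal (Localization.AtPrime p) ^ N) +
        (μ : ℕ∞) * Module.length (Localization.AtPrime p) (Localization.AtPrime p ⧸
          (Ideal.span {algebraMap V (Localization.AtPrime p) c} ⊔
            maximalIdeal (Localization.AtPrime p) ^ N)) := by
  classical
  obtain ⟨G, hG⟩ := (Module.Finite.fg_top : (⊤ : Submodule V S).FG)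
  refine ⟨G.card, fun N => ?_⟩
  let Vp := Localization.AtPrime p
  let SP := Localization.AtPrime P
  let ι : Vp →+* SP := Localization.localRingHom p P (algebraMap V S) hp
  let : Algebra Vp SP := ι.toAlgebra
  let T := SP ⧸ maximalIdeal SP ^ N
  let g : S →+* T := (Ideal.Quotient.mk (maximalIdeal SP ^ N)).comp (algebraMap S SP)
  have hsmul : ∀ (v : V) (s : S), g (v • s) = algebraMap V Vp v • g s := by
    intro v s
    rw [Algebra.smul_def v s, map_mul, Algebra.smul_def (algebraMap V Vp v) (g s)]
    congr 1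
    show Ideal.Quotient.mk _ (algebraMap S SP (algebraMap V S v)) =
      Ideal.Quotient.mk _ (ι (algebraMap V Vp v))
    rw [Localization.localRingHom_to_map]
  have hkill : ∀ a ∈ maximalIdeal Vp ^ N, ∀ t : T, a • t = 0 := by
    intro a ha t
    have hle : (maximalIdeal Vp).map ι ≤ maximalIdeal SP :=
      ((IsLocalRing.local_hom_TFAE ι).out 0 2).1
        (Localization.isLocalHom_localRingHom p P (algebraMap V S) hp)
    have h1 : ι a ∈ maximalIdeal SP ^ N :=
      Ideal.pow_right_mono hle N (Ideal.map_pow ι _ N ▸ Ideal.mem_map_of_mem ι ha)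
    rw [Algebra.smul_def, show algebraMap Vp T a = 0 from Ideal.Quotient.eq_zero_iff_mem.2 h1,
      zero_mul]
  let vf : Fin ρ → T := fun i => g (f (Pi.single i 1))
  let ug : G → T := fun x => g (x : S)
  set B := Submodule.span Vp (Set.range vf ∪ Set.range ug) with hB
  have hrf : ∀ w, g (f w) ∈ Submodule.span Vp (Set.range vf) := by
    intro w
    rw [pi_eq_sum_univ' w, map_sum, map_sum]
    refine Submodule.sum_mem _ fun i _ => ?_
    rw [map_smul, hsmul]
    exact Submodule.smul_mem _ _ (Submodule.subset_span ⟨i, rfl⟩)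
  have hmemB : ∀ s, g s ∈ B := by
    intro s
    have hs : s ∈ Submodule.span V (G : Set S) := by rw [hG]; exact Submodule.mem_top
    induction hs using Submodule.span_induction with
    | mem x hx => exact Submodule.subset_span (Or.inr ⟨⟨x, hx⟩, rfl⟩)
    | zero => simp
    | add x y _ _ hx hy =>
      rw [map_add]
      exact add_mem hx hy
    | smul v x _ hx =>
      rw [hsmul]
      exact Submodule.smul_mem _ _ hx
  have hlenB : Module.length Vp B ≤ (ρ : ℕ∞) * Module.length Vp (Vp ⧸ maximalIdeal Vp ^ N) +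
      (G.card : ℕ∞) * Module.length Vp
        (Vp ⧸ (Ideal.span {algebraMap V Vp c} ⊔ maximalIdeal Vp ^ N)) := by
    have h1 := length_span_union_le vf ug (maximalIdeal Vp ^ N)
      (Ideal.span {algebraMap V Vp c} ⊔ maximalIdeal Vp ^ N) (fun i a ha => hkill a ha _)
      (fun x a ha => ?_)
    · simpa using h1
    obtain ⟨y, hy, z, hz, rfl⟩ := Submodule.mem_sup.1 ha
    obtain ⟨a', rfl⟩ := Ideal.mem_span_singleton'.1 hy
    rw [add_smul, hkill z hz, add_zero, mul_smul, ← hsmul]
    obtain ⟨w, hw⟩ := hc (x : S)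
    rw [← hw]
    exact Submodule.smul_mem _ _ (hrf w)
  have hart : IsArtinian Vp B := by
    refine (isFiniteLength_iff_isNoetherian_isArtinian.1 (Module.length_ne_top_iff.1
      (ne_top_of_le_ne_top ?_ hlenB))).2
    refine WithTop.add_ne_top.2 ⟨WithTop.mul_ne_top (ENat.natCast_ne_top _) ?_,
      WithTop.mul_ne_top (ENat.natCast_ne_top _) ?_⟩
    · exact length_quotient_ne_top le_rfl
    · exact length_quotient_ne_top (r := N) le_sup_right
  have htop : ∀ t : T, t ∈ B := by
    intro t
    obtain ⟨x, rfl⟩ := Ideal.Quotient.mk_surjective t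
    obtain ⟨a, s, rfl⟩ := IsLocalization.exists_mk'_eq P.primeCompl x
    have hu : IsUnit (g (s : S)) :=
      (IsLocalization.map_units SP s).map (Ideal.Quotient.mk (maximalIdeal SP ^ N))
    have hst : ∀ b ∈ B, g (s : S) * b ∈ B := by
      intro b hb
      induction hb using Submodule.span_induction with
      | mem y hy =>
        rcases hy with ⟨i, rfl⟩ | ⟨x, rfl⟩ <;> rw [← map_mul] <;> exact hmemB _
      | zero => simp
      | add y z _ _ hy hz =>
        rw [mul_add]
        exact add_mem hy hz
      | smul r y _ hy =>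
        rw [mul_smul_comm]
        exact Submodule.smul_mem _ _ hy
    let μs : B →ₗ[Vp] B := (LinearMap.mulLeft Vp (g (s : S))).restrict hst
    have hinj : Function.Injective μs := fun y z hyz =>
      Subtype.ext (hu.mul_right_injective (congrArg Subtype.val hyz))
    obtain ⟨b, hb⟩ := (IsArtinian.bijective_of_injective_endomorphism μs hinj).2 ⟨_, hmemB a⟩
    have hb' : g (s : S) * (b : T) = g a := congrArg Subtype.val hb
    have : Ideal.Quotient.mk _ (IsLocalization.mk' SP a s) = (b : T) := by
      refine hu.mul_right_injective ?_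
      show g (s : S) * _ = g (s : S) * (b : T)
      rw [hb']
      show Ideal.Quotient.mk _ (algebraMap S SP (s : S)) * _ =
        Ideal.Quotient.mk _ (algebraMap S SP a)
      rw [← map_mul, IsLocalization.mk'_spec']
    exact this ▸ b.2
  have hBT : B = ⊤ := Submodule.eq_top_iff'.2 htop
  calc Module.length SP T ≤ Module.length Vp T := by
        refine WithBot.coe_le_coe.1 ?_
        rw [Module.coe_length, Module.coe_length]
        exact Order.krullDim_le_of_strictMono (Submodule.restrictScalars Vp)
          (Submodule.restrictScalarsEmbedding Vp SP T).strictMono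
    _ = Module.length Vp B := by rw [hBT, Module.length_top]
    _ ≤ _ := hlenB

end Vale.Agent.P202
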