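import Vale.Agent.P202.Reduce.CutLocal
import Vale.Agent.P202.Reduce.CutModule
import Vale.Agent.P202.RingSide.Reduction

/-!
# P202 Reduce: localisation does not raise the multiplicity

For a complete Noetherian local ring `S` with an infinite coefficient field and a prime `P` with
`dim S ≤ dim S/P + dim S_P`: `limsup hsSeq S_P ≤ liminf hsSeq S`.
-/

noncomputable section

namespace Vale.Agent.P202

open IsLocalRing Filter Topology
open scoped ENNReal

theorem tendsto_err {e : ℕ → ℕ∞} {C d : ℕ}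
    (he : ∀ N, e N * (N + 1 : ℕ) ≤ (C : ℕ∞) * ((N + 1) ^ d : ℕ)) (a : ℕ) :
    Tendsto (fun N => (a : ℝ≥0∞) * ((e N : ℕ∞) : ℝ≥0∞) / (N : ℝ≥0∞) ^ d) atTop (𝓝 0) := by
  have hlim : Tendsto (fun N : ℕ => (a : ℝ≥0∞) * (C * 2 ^ d : ℕ) * (N : ℝ≥0∞)⁻¹) atTop (𝓝 0) := by
    have := ENNReal.Tendsto.const_mul ENNReal.tendsto_inv_nat_nhds_zero
      (a := (a : ℝ≥0∞) * (C * 2 ^ d : ℕ))
      (Or.inr (ENNReal.mul_ne_top (ENNReal.natCast_ne_top _) (ENNReal.natCast_ne_top _)))
    rwa [mul_zero] at this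
  refine tendsto_of_tendsto_of_tendsto_of_le_of_le' tendsto_const_nhds hlim
    (Eventually.of_forall fun N => zero_le) ?_
  filter_upwards [eventually_gt_atTop 0] with N hN
  have hN0 : (N : ℝ≥0∞) ≠ 0 := by exact_mod_cast hN.ne'
  have h1 : ((e N : ℕ∞) : ℝ≥0∞) * N ≤ ((C * 2 ^ d : ℕ) : ℝ≥0∞) * (N : ℝ≥0∞) ^ d := by
    have h2 : e N * (N : ℕ∞) ≤ ((C * 2 ^ d * N ^ d : ℕ) : ℕ∞) := by
      refine le_trans (mul_le_mul' le_rfl (Nat.cast_le.2 N.le_succ)) ((he N).trans ?_)
      rw [← Nat.cast_mul, Nat.cast_le, mul_assoc, ← mul_pow]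
      exact Nat.mul_le_mul_left _ (Nat.pow_le_pow_left (by omega) _)
    have h3 := ENat.toENNReal_le.2 h2
    simpa using h3
  calc (a : ℝ≥0∞) * ((e N : ℕ∞) : ℝ≥0∞) / (N : ℝ≥0∞) ^ d
      ≤ (a : ℝ≥0∞) * (((C * 2 ^ d : ℕ) : ℝ≥0∞) * (N : ℝ≥0∞) ^ d / N) / (N : ℝ≥0∞) ^ d := by
        refine ENNReal.div_le_div_right (mul_le_mul' le_rfl ?_) _
        rw [ENNReal.le_div_iff_mul_le (Or.inl hN0) (Or.inl (ENNReal.natCast_ne_top N))]
        exact h1
    _ = (a : ℝ≥0∞) * (C * 2 ^ d : ℕ) * (N : ℝ≥0∞)⁻¹ *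
          ((N : ℝ≥0∞) ^ d * ((N : ℝ≥0∞) ^ d)⁻¹) := by
        simp only [div_eq_mul_inv]
        ring
    _ = _ := by
        rw [ENNReal.mul_inv_cancel (pow_ne_zero d hN0)
          (ENNReal.pow_ne_top (ENNReal.natCast_ne_top N)), mul_one]

/-- A bound up to a vanishing error passes to the lower limit. -/
theorem le_liminf_of_le_add {X Y Z : ℕ → ℝ≥0∞} {ρ : ℝ≥0∞} (hX : Tendsto X atTop (𝓝 ρ))
    (hZ : Tendsto Z atTop (𝓝 0)) (hρ : ρ ≠ ⊤) (h : ∀ᶠ N in atTop, X N ≤ Y N + Z N) :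
    ρ ≤ liminf Y atTop := by
  refine ENNReal.le_of_forall_pos_le_add fun ε hε _ => ?_
  have hε' : (0 : ℝ≥0∞) < ε := by exact_mod_cast hε
  rw [← tsub_le_iff_right]
  have hsub : Tendsto (fun N => X N - ε) atTop (𝓝 (ρ - ε)) :=
    ENNReal.Tendsto.sub hX tendsto_const_nhds (Or.inl hρ)
  rw [← hsub.liminf_eq]
  refine liminf_le_liminf ?_
  filter_upwards [h, hZ.eventually (gt_mem_nhds hε')] with N hN hZN
  exact tsub_le_iff_right.2 (hN.trans (add_le_add le_rfl hZN.le))

/-- The lower bound by the generic rank over a finite power series parametrisation. -/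
theorem rank_le_liminf_hsSeq {L S : Type*} [Field L] [CommRing S] [IsNoetherianRing S]
    [IsLocalRing S] {D : ℕ} (hD : dimNat S = D) [Algebra (MvPowerSeries (Fin D) L) S]
    [IsLocalHom (algebraMap (MvPowerSeries (Fin D) L) S)]
    (hres : ∀ a : S, ∃ F, a - algebraMap (MvPowerSeries (Fin D) L) S F ∈ maximalIdeal S)
    {ρ : ℕ} (f : (Fin ρ → MvPowerSeries (Fin D) L) →ₗ[MvPowerSeries (Fin D) L] S)
    (c : MvPowerSeries (Fin D) L) (hc0 : c ≠ 0) (hf : Function.Injective f)
    (hc : ∀ s, c • s ∈ LinearMap.range f) {r : ℕ}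
    (hr : ∀ N, maximalIdeal S ^ (N + r) ≤
      ((maximalIdeal (MvPowerSeries (Fin D) L)) ^ N).map (algebraMap _ S)) :
    (ρ : ℝ≥0∞) ≤ liminf (hsSeq S) atTop := by
  let V := MvPowerSeries (Fin D) L
  have : IsDomain V := NoZeroDivisors.to_isDomain _
  have hdimV : dimNat V ≤ D := by
    refine dimNat_le ((ringKrullDim_le_spanFinrank_maximalIdeal V).trans (Nat.cast_le.2 ?_))
    rw [maximalIdeal_mvPowerSeries]
    refine (Submodule.spanFinrank_span_le_ncard_of_finite (Set.finite_range _)).trans ?_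
    rw [← Set.image_univ]
    exact (Set.ncard_image_le Set.finite_univ).trans (by simp)
  obtain ⟨C, hC⟩ := exists_length_cut_le hc0 hdimV
  set e : ℕ → ℕ∞ := fun N => Module.length V (V ⧸ (Ideal.span {c} ⊔ maximalIdeal V ^ N))
  have hres1 : Module.length (ResidueField V) (ResidueField S) = 1 := by
    have hsurj : Function.Surjective (algebraMap (ResidueField V) (ResidueField S)) := by
      intro a
      obtain ⟨a, rfl⟩ := residue_surjective a
      obtain ⟨F, hF⟩ := hres a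
      refine ⟨residue V F, ?_⟩
      rw [← sub_eq_zero]
      show residue S (algebraMap V S F) - residue S a = 0
      rw [← map_sub, residue_eq_zero_iff]
      simpa using neg_mem hF
    rw [Module.length_eq_of_surjective (R := ResidueField S) hsurj]
    exact Module.length_eq_one _ _
  have key : ∀ N, (ρ : ℕ∞) * (monCount D N : ℕ∞) ≤
      Module.length S (S ⧸ maximalIdeal S ^ (N + r)) + (ρ : ℕ∞) * e N := by
    intro N
    refine le_trans (mul_le_mul' le_rfl (monCount_le_length N))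
      ((mul_length_le_add f c hf hc (maximalIdeal V ^ N)).trans (add_le_add ?_ le_rfl))
    rw [show Module.length V (S ⧸ (maximalIdeal V ^ N • ⊤ : Submodule V S)) =
        Module.length V (S ⧸ (maximalIdeal V ^ N).map (algebraMap V S)) by
      rw [Ideal.smul_top_eq_map]
      exact (Submodule.Quotient.restrictScalarsEquiv V _).length_eq]
    rw [IsLocalRing.length_restrictScalars V S, hres1, mul_one]
    exact length_quotient_mono (hr N)
  have hX : Tendsto (fun N : ℕ => (ρ : ℝ≥0∞) * ((N : ℝ≥0∞) ^ D / ((N + r : ℕ) : ℝ≥0∞) ^ D))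
      atTop (𝓝 (ρ : ℝ≥0∞)) := by
    have h := ENNReal.Tendsto.const_mul (tendsto_pow_div_add_pow r D) (Or.inl one_ne_zero)
      (a := (ρ : ℝ≥0∞))
    rwa [mul_one] at h
  have hZ : Tendsto (fun N => ((D.factorial * ρ : ℕ) : ℝ≥0∞) * ((e N : ℕ∞) : ℝ≥0∞) /
      (N : ℝ≥0∞) ^ D) atTop (𝓝 0) := tendsto_err hC _
  rw [← liminf_nat_add (hsSeq S) r]
  refine le_liminf_of_le_add hX hZ (ENNReal.natCast_ne_top ρ) ?_
  filter_upwards [eventually_gt_atTop 0] with N hN
  obtain ⟨n, rfl⟩ : ∃ n, N = n + 1 := ⟨N - 1, by omega⟩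
  have h1 : (ρ : ℝ≥0∞) * ((n + 1 : ℕ) : ℝ≥0∞) ^ D ≤
      (D.factorial : ℝ≥0∞) *
        ((Module.length S (S ⧸ maximalIdeal S ^ (n + 1 + r)) : ℕ∞) : ℝ≥0∞) +
      ((D.factorial * ρ : ℕ) : ℝ≥0∞) * ((e (n + 1) : ℕ∞) : ℝ≥0∞) := by
    have h2 := ENat.toENNReal_le.2 (key (n + 1))
    simp only [ENat.toENNReal_mul, ENat.toENNReal_add, ENat.toENNReal_coe] at h2
    calc (ρ : ℝ≥0∞) * ((n + 1 : ℕ) : ℝ≥0∞) ^ D
        ≤ (ρ : ℝ≥0∞) * ((D.factorial * monCount D (n + 1) : ℕ) : ℝ≥0∞) :=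
          mul_le_mul' le_rfl (by exact_mod_cast pow_le_factorial_mul_monCount D n)
      _ = (D.factorial : ℝ≥0∞) * ((ρ : ℝ≥0∞) * (monCount D (n + 1) : ℝ≥0∞)) := by
          push_cast; ring
      _ ≤ _ := (mul_le_mul' le_rfl h2).trans (le_of_eq (by push_cast; ring))
  rw [hsSeq, hD, ← mul_div_assoc]
  refine (ENNReal.div_le_div_right h1 _).trans ?_
  rw [ENNReal.add_div]
  refine add_le_add le_rfl (ENNReal.div_le_div_left (pow_le_pow_left' ?_ D) _)
  exact_mod_cast Nat.le_add_right _ _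

/-- The upper bound by the generic rank for the localisation. -/
theorem limsup_hsSeq_atPrime_le_rank {L V S : Type*} [Field L] [CommRing V] [IsNoetherianRing V]
    [IsDomain V] [CommRing S] [IsNoetherianRing S] [Algebra V S] [Module.Finite V S] {ρ : ℕ}
    (f : (Fin ρ → V) →ₗ[V] S) (c : V) (hc0 : c ≠ 0) (hc : ∀ s, c • s ∈ LinearMap.range f)
    (P : Ideal S) [P.IsPrime] (p : Ideal V) [p.IsPrime] (hp : p = P.comap (algebraMap V S))
    (hlen : ∀ N, Module.length (Localization.AtPrime p)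
      (Localization.AtPrime p ⧸ maximalIdeal (Localization.AtPrime p) ^ N) ≤
        (monCount (dimNat (Localization.AtPrime P)) N : ℕ∞))
    (hdim : dimNat (Localization.AtPrime p) ≤ dimNat (Localization.AtPrime P)) :
    limsup (hsSeq (Localization.AtPrime P)) atTop ≤ (ρ : ℝ≥0∞) := by
  set h := dimNat (Localization.AtPrime P)
  obtain ⟨μ, hμ⟩ := exists_length_atPrime_le f c hc P p hp
  have : IsDomain (Localization.AtPrime p) := inferInstance
  have hc0' : algebraMap V (Localization.AtPrime p) c ≠ 0 := fun h0 =>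
    hc0 (IsLocalization.injective (Localization.AtPrime p) p.primeCompl_le_nonZeroDivisors
      (h0.trans (map_zero _).symm))
  obtain ⟨C, hC⟩ := exists_length_cut_le hc0' hdim
  set e : ℕ → ℕ∞ := fun N => Module.length (Localization.AtPrime p) (Localization.AtPrime p ⧸
    (Ideal.span {algebraMap V (Localization.AtPrime p) c} ⊔
      maximalIdeal (Localization.AtPrime p) ^ N))
  have hb : ∀ N : ℕ, hsSeq (Localization.AtPrime P) N ≤
      (ρ : ℝ≥0∞) * (((N + h : ℕ) : ℝ≥0∞) ^ h / (N : ℝ≥0∞) ^ h) +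
        ((h.factorial * μ : ℕ) : ℝ≥0∞) * ((e N : ℕ∞) : ℝ≥0∞) / (N : ℝ≥0∞) ^ h := by
    intro N
    have h2 := ENat.toENNReal_le.2 ((hμ N).trans (add_le_add (mul_le_mul' le_rfl (hlen N)) le_rfl))
    simp only [ENat.toENNReal_mul, ENat.toENNReal_add, ENat.toENNReal_coe] at h2
    rw [hsSeq, ← mul_div_assoc, ← ENNReal.add_div]
    refine ENNReal.div_le_div_right ((mul_le_mul' le_rfl h2).trans ?_) _
    rw [mul_add]
    refine add_le_add ?_ (le_of_eq (by push_cast; ring))
    calc (h.factorial : ℝ≥0∞) * ((ρ : ℝ≥0∞) * (monCount h N : ℝ≥0∞))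
        = (ρ : ℝ≥0∞) * ((h.factorial * monCount h N : ℕ) : ℝ≥0∞) := by push_cast; ring
      _ ≤ _ := mul_le_mul' le_rfl (by exact_mod_cast factorial_mul_monCount_le h N)
  refine (limsup_le_limsup (Eventually.of_forall hb)).trans_eq ?_
  have hlim := (ENNReal.Tendsto.const_mul (tendsto_add_pow_div_pow h h) (Or.inl one_ne_zero)
    (a := (ρ : ℝ≥0∞))).add (tendsto_err hC (h.factorial * μ))
  rw [mul_one, add_zero] at hlim
  exact hlim.limsup_eq

/-- Localisation at a prime of full dimension does not raise the multiplicity. -/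
theorem limsup_hsSeq_atPrime_le {L S : Type*} [Field L] [Infinite L] [CommRing S]
    [IsNoetherianRing S] [IsLocalRing S] [IsAdicComplete (maximalIdeal S) S] (τ : L →+* S)
    (hτ : Function.Bijective ((residue S).comp τ)) (P : Ideal S) [P.IsPrime]
    (hP : dimNat S ≤ dimNat (S ⧸ P) + dimNat (Localization.AtPrime P)) :
    limsup (hsSeq (Localization.AtPrime P)) atTop ≤ liminf (hsSeq S) atTop := by
  have : Infinite (ResidueField S) := Infinite.of_injective _ hτ.1
  obtain ⟨D, hD⟩ : ∃ D, dimNat S = D := ⟨_, rfl⟩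
  obtain ⟨y, r, hy, hr⟩ : ∃ (y : Fin D → S) (r : ℕ), Ideal.span (Set.range y) ≤ maximalIdeal S ∧
      ∀ N, maximalIdeal S ^ (N + r) ≤ Ideal.span (Set.range y) ^ N :=
    hD ▸ exists_reduction (A := S)
  have hym : ∀ i, y i ∈ maximalIdeal S := fun i => hy (Ideal.subset_span ⟨i, rfl⟩)
  obtain ⟨φ, hφC, hφX, -⟩ := exists_evalHom τ y hym
  let V := MvPowerSeries (Fin D) L
  have hres : ∀ a : S, ∃ b, a - φ (MvPowerSeries.C b) ∈ maximalIdeal S := fun a => by
    obtain ⟨b, hb⟩ := hτ.2 (residue S a)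
    refine ⟨b, ?_⟩
    rw [hφC, ← residue_eq_zero_iff, map_sub, ← hb, RingHom.comp_apply, sub_self]
  have hrange : Ideal.span (Set.range fun i => φ (MvPowerSeries.X i)) =
      Ideal.span (Set.range y) := by
    simp only [hφX]
  have hfin : φ.Finite := finite_of_powerSeriesHom φ hres
    (fun i => by rw [hφX]; exact hym i) (r := 1 + r) (by simpa [hrange] using hr 1)
  let := φ.toAlgebra
  have : Module.Finite V S := hfin
  have hmapV : (maximalIdeal V).map (algebraMap V S) = Ideal.span (Set.range y) := by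
    rw [maximalIdeal_mvPowerSeries, Ideal.map_span, ← Set.range_comp]
    exact hrange
  have hloc : IsLocalHom (algebraMap V S) := by
    refine ((IsLocalRing.local_hom_TFAE (algebraMap V S)).out 0 2).2 ?_
    rw [hmapV]
    exact hy
  have : IsDomain V := NoZeroDivisors.to_isDomain _
  obtain ⟨ρ, f, c, hc0, hf, hc⟩ := exists_free_cokilled V S
  refine le_trans ?_ (rank_le_liminf_hsSeq (L := L) hD
    (fun a => let ⟨b, hb⟩ := hres a; ⟨_, hb⟩) f c hc0 hf hc (r := r)
    fun N => by rw [Ideal.map_pow, hmapV]; exact hr N)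
  set p := P.comap (algebraMap V S) with hp
  have hkV : ringKrullDim (S ⧸ P) ≤ ringKrullDim (V ⧸ p) := by
    refine ringKrullDim_le_of_isIntegral (Ideal.quotientMap P (algebraMap V S) le_rfl)
      (RingHom.Finite.to_isIntegral ?_)
    refine RingHom.Finite.of_comp_finite (f := Ideal.Quotient.mk p) ?_
    rw [Ideal.quotientMap_comp_mk]
    exact (RingHom.Finite.of_surjective _ Ideal.Quotient.mk_surjective).comp hfin
  have : IsLocalRing (S ⧸ P) :=
    IsLocalRing.of_surjective' (Ideal.Quotient.mk P) Ideal.Quotient.mk_surjective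
  have : IsLocalRing (V ⧸ p) :=
    IsLocalRing.of_surjective' (Ideal.Quotient.mk p) Ideal.Quotient.mk_surjective
  rw [coe_dimNat (S ⧸ P), coe_dimNat (V ⧸ p)] at hkV
  have hk : dimNat (S ⧸ P) ≤ dimNat (V ⧸ p) := by exact_mod_cast hkV
  set h := dimNat (Localization.AtPrime P)
  have hd : D ≤ dimNat (V ⧸ p) + h := by omega
  refine limsup_hsSeq_atPrime_le_rank (L := L) f c hc0 hc P p hp
    (length_atPrime_pow_le p hd) ?_
  have h1 := height_add_ringKrullDim_quotient_le p
  have h2 : ringKrullDim V ≤ (D : WithBot ℕ∞) := by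
    refine (ringKrullDim_le_spanFinrank_maximalIdeal V).trans (Nat.cast_le.2 ?_)
    rw [maximalIdeal_mvPowerSeries]
    refine (Submodule.spanFinrank_span_le_ncard_of_finite (Set.finite_range _)).trans ?_
    rw [← Set.image_univ]
    exact (Set.ncard_image_le Set.finite_univ).trans (by simp)
  rw [← IsLocalization.AtPrime.ringKrullDim_eq_height p (Localization.AtPrime p),
    coe_dimNat (Localization.AtPrime p), coe_dimNat (V ⧸ p)] at h1
  have h3 : dimNat (Localization.AtPrime p) + dimNat (V ⧸ p) ≤ D := by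
    exact_mod_cast h1.trans h2
  omega

end Vale.Agent.P202
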