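import Vale.Agent.P202.Reduce.GeneralTools
import Vale.Agent.P202.Reduce.CutBound

/-!
# P202 Reduce: from finite maps of complete rings to all flat local maps

If Lech's inequality holds for module-finite flat maps out of complete rings of characteristic `p`
with algebraically closed residue field (satisfying a stable condition `Good`), then it holds for
every flat local map out of a ring of characteristic `p` with perfect residue field.
-/

noncomputable section

namespace Vale.Agent.P202

open IsLocalRing Filter
open scoped ENNReal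

universe u

section Prime

variable {R B : Type u} [CommRing R] [IsNoetherianRing R] [IsLocalRing R] [CommRing B]
  [IsNoetherianRing B] [IsLocalRing B]

/-- A prime minimal over `mB` of largest dimension. -/
theorem exists_prime_over (g : R →+* B) (hloc : IsLocalHom g) (hflat : g.Flat) :
    ∃ (P : Ideal B) (_ : P.IsPrime), (maximalIdeal R).map g ≤ P ∧
      (∀ Q : Ideal B, Q.IsPrime → (maximalIdeal R).map g ≤ Q → Q ≤ P → Q = P) ∧
      dimNat B ≤ dimNat (B ⧸ P) + dimNat (Localization.AtPrime P) := by
  algebraize [g]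
  have : IsLocalHom (algebraMap R B) := hloc
  set m := maximalIdeal R
  set J := m.map (algebraMap R B)
  have hc : (maximalIdeal B).comap (algebraMap R B) = m := by
    ext a
    simp [m, mem_nonunits_iff]
  have hJ : J ≤ maximalIdeal B := Ideal.map_le_iff_le_comap.2 hc.ge
  set F := B ⧸ J
  let mk : B →+* F := Ideal.Quotient.mk J
  have : Nontrivial F := Ideal.Quotient.nontrivial_iff.2
    (ne_top_of_le_ne_top (maximalIdeal.isMaximal B).ne_top hJ)
  have : IsLocalRing F := IsLocalRing.of_surjective' mk Ideal.Quotient.mk_surjective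
  set n := dimNat F
  obtain ⟨l, hl⟩ := Order.le_krullDim_iff.1 (coe_dimNat F).ge
  let Pb : PrimeSpectrum F := l.head
  have hco : (n : WithBot ℕ∞) ≤ ringKrullDim (F ⧸ Pb.asIdeal) := by
    have h1 : ringKrullDim (F ⧸ Pb.asIdeal) = (Order.coheight Pb : WithBot ℕ∞) := by
      rw [ringKrullDim_quotient, Order.coheight_eq_krullDim_Ici]
      congr!
    rw [h1, show n = l.length from hl.symm]
    exact WithBot.coe_le_coe.2 (Order.length_le_coheight_head (p := l))
  have h0 : Pb.asIdeal.height = 0 := by
    have h1 := (add_le_add le_rfl hco).trans (height_add_ringKrullDim_quotient_le Pb.asIdeal)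
    rw [coe_dimNat F] at h1
    have h2 : Pb.asIdeal.height + (n : ℕ∞) ≤ (n : ℕ∞) := by exact_mod_cast h1
    have h3 : Pb.asIdeal.height + (n : ℕ∞) ≤ 0 + (n : ℕ∞) := by rwa [zero_add]
    exact nonpos_iff_eq_zero.1 ((ENat.add_le_add_iff_right (ENat.natCast_ne_top n)).1 h3)
  let P : Ideal B := Pb.asIdeal.comap mk
  have hP : P.IsPrime := Ideal.comap_isPrime _ _
  have hJP : J ≤ P := fun x hx => by
    show mk x ∈ Pb.asIdeal
    rw [show mk x = 0 from Ideal.Quotient.eq_zero_iff_mem.2 hx]
    exact zero_mem _
  have hover : P.LiesOver m := ⟨le_antisymm (Ideal.map_le_iff_le_comap.1 hJP)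
    (IsLocalRing.le_maximalIdeal (Ideal.IsPrime.comap (algebraMap R B)).ne_top)⟩
  have hmapP : P.map mk = Pb.asIdeal :=
    Ideal.map_comap_of_surjective mk Ideal.Quotient.mk_surjective _
  have hhP := Ideal.height_eq_height_add_of_liesOver_of_hasGoingDown (R := R) m P
  rw [show P.map (Ideal.Quotient.mk (m.map (algebraMap R B))) = Pb.asIdeal from hmapP, h0,
    add_zero] at hhP
  have : (maximalIdeal B).LiesOver m := ⟨hc.symm⟩
  have hhB := Ideal.height_eq_height_add_of_liesOver_of_hasGoingDown (R := R) m (maximalIdeal B)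
  rw [show (maximalIdeal B).map (Ideal.Quotient.mk (m.map (algebraMap R B))) = maximalIdeal F from
    IsLocalRing.map_maximalIdeal_of_surjective mk Ideal.Quotient.mk_surjective] at hhB
  refine ⟨P, hP, hJP, fun Q hQ hJQ hQP => ?_, ?_⟩
  · have hk : RingHom.ker mk ≤ Q := by rwa [Ideal.mk_ker]
    have hQb : (Q.map mk).IsPrime :=
      Ideal.map_isPrime_of_surjective Ideal.Quotient.mk_surjective hk
    have hmin := Ideal.height_eq_zero_iff.1 h0
    have := hmin.2 ⟨hQb, bot_le⟩ (hmapP ▸ Ideal.map_mono hQP)
    have hPQ : P ≤ Q := by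
      rw [show Q = (Q.map mk).comap mk by
        rw [Ideal.comap_map_of_surjective' _ Ideal.Quotient.mk_surjective, sup_eq_left.2 hk]]
      exact Ideal.comap_mono this
    exact le_antisymm hQP hPQ
  · have : IsLocalRing (B ⧸ P) :=
      IsLocalRing.of_surjective' (Ideal.Quotient.mk P) Ideal.Quotient.mk_surjective
    have : IsLocalRing (F ⧸ Pb.asIdeal) :=
      IsLocalRing.of_surjective' (Ideal.Quotient.mk Pb.asIdeal) Ideal.Quotient.mk_surjective
    have hk : n ≤ dimNat (B ⧸ P) := by
      let χ : B →+* F ⧸ Pb.asIdeal := (Ideal.Quotient.mk Pb.asIdeal).comp mk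
      have hχ : RingHom.ker χ = P := by
        rw [← RingHom.comap_ker, Ideal.mk_ker]
      have e := ringKrullDim_eq_of_ringEquiv ((Ideal.quotEquivOfEq hχ.symm).trans
        (RingHom.quotientKerEquivOfSurjective (f := χ)
          (Ideal.Quotient.mk_surjective.comp Ideal.Quotient.mk_surjective)))
      rw [← e, coe_dimNat (B ⧸ P)] at hco
      exact_mod_cast hco
    have hd : dimNat (Localization.AtPrime P) = dimNat R := by
      rw [dimNat, dimNat, IsLocalization.AtPrime.ringKrullDim_eq_height P (Localization.AtPrime P),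
        hhP, IsLocalRing.maximalIdeal_height_eq_ringKrullDim]
    have hB : dimNat B = dimNat R + n := by
      have h1 : ((dimNat B : ℕ) : WithBot ℕ∞) = ((dimNat R : ℕ) : WithBot ℕ∞) + (n : ℕ) := by
        rw [← coe_dimNat B, ← coe_dimNat R, ← coe_dimNat F,
          ← IsLocalRing.maximalIdeal_height_eq_ringKrullDim,
          ← IsLocalRing.maximalIdeal_height_eq_ringKrullDim,
          ← IsLocalRing.maximalIdeal_height_eq_ringKrullDim, hhB, WithBot.coe_add]
      exact_mod_cast h1
    omega

end Prime

/-- The condition carried through the reduction. -/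
abbrev LocalRingPred : Type (u + 1) :=
  ∀ (A : Type u) [CommRing A] [IsLocalRing A], Prop

/-- `Good` passes along flat local maps generating the maximal ideal. -/
def StableUnderFlatExtension (Good : LocalRingPred.{u}) : Prop :=
  ∀ (A B : Type u) [CommRing A] [IsNoetherianRing A] [IsLocalRing A] [CommRing B]
    [IsNoetherianRing B] [IsLocalRing B] (f : A →+* B), IsLocalHom f → f.Flat →
    (maximalIdeal A).map f = maximalIdeal B → Good A → Good B

/-- Lech's inequality for finite maps out of complete rings with algebraically closed residue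
field. -/
def FiniteLech (p : ℕ) (Good : LocalRingPred.{u}) : Prop :=
  ∀ (A : Type u) [CommRing A] [IsNoetherianRing A] [IsLocalRing A] [CharP A p]
    [IsAdicComplete (maximalIdeal A) A] [IsAlgClosed (ResidueField A)],
    Good A → ∀ (B : Type u) [CommRing B] [IsLocalRing B] [Algebra A B]
      [IsLocalHom (algebraMap A B)] [Module.Finite A B] [Module.Flat A B],
      limsup (hsSeq A) atTop ≤ liminf (hsSeq B) atTop

variable {p : ℕ} [Fact p.Prime] {Good : LocalRingPred.{u}}

/-- The case of a complete target with finite length fibre and algebraically closed coefficient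
field. -/
theorem lech_of_primary (hstable : StableUnderFlatExtension Good) (hmain : FiniteLech p Good)
    (R : Type u) [CommRing R] [IsNoetherianRing R] [IsLocalRing R] [CharP R p]
    [PerfectField (ResidueField R)] (hG : Good R) (T : Type u) [CommRing T] [IsLocalRing T]
    [IsNoetherianRing T] [IsAdicComplete (maximalIdeal T) T] {L : Type u} [Field L]
    [IsAlgClosed L] (τ : L →+* T) (hτ : Function.Bijective ((residue T).comp τ))
    (g : R →+* T) (hloc : IsLocalHom g) (hflat : g.Flat) {r : ℕ}
    (hr : maximalIdeal T ^ r ≤ (maximalIdeal R).map g) :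
    limsup (hsSeq R) atTop ≤ liminf (hsSeq T) atTop := by
  obtain ⟨A, iA, iAl, iAn, iAc, iAp, fR, hRl, hRf, hRm, ⟨e, he, hecomp⟩, hlift⟩ :=
    exists_completion_lift R p
  have hgm : (maximalIdeal R).map g ≤ maximalIdeal T :=
    ((IsLocalRing.local_hom_TFAE g).out 0 2).1 hloc
  obtain ⟨gA, hgA⟩ := hlift T g fun a ha => hgm (Ideal.mem_map_of_mem g ha)
  obtain ⟨σ₀, hσ₀⟩ := exists_coefficientField' A p
  let σ : ResidueField R →+* A := σ₀.comp e
  have hσ : Function.Bijective ((residue A).comp σ) := by
    rw [show (residue A).comp σ = e from RingHom.ext fun x => hσ₀ (e x)]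
    exact he
  let rL : L ≃+* ResidueField T := RingEquiv.ofBijective _ hτ
  let ι : ResidueField R →+* L := rL.symm.toRingHom.comp ((residue T).comp (gA.comp σ))
  have : Algebra (ResidueField R) L := ι.toAlgebra
  let : Algebra (ResidueField R) L := ι.toAlgebra
  have : CharP T p := by
    refine charP_of_injective_ringHom (f := g) ?_ p
    algebraize [g]
    have : IsLocalHom (algebraMap R T) := hloc
    have : Module.FaithfullyFlat R T := Module.FaithfullyFlat.of_flat_of_isLocalHom
    exact FaithfulSMul.algebraMap_injective R T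
  have hcompat : gA.comp σ = τ.comp (algebraMap (ResidueField R) L) := by
    have : PerfectRing (ResidueField R) p := PerfectField.toPerfectRing p
    refine coefficient_unique (p := p) fun a => ?_
    exact (rL.apply_symm_apply _).symm
  obtain ⟨A', iA', iA'l, iA'n, iA'c, f', τ', hl', hf', hm', hτ', -, huniv⟩ :=
    exists_gonflement (L := L) σ hσ
  have hgAm : ∀ a ∈ maximalIdeal A, gA a ∈ maximalIdeal T := by
    rw [← hRm]
    exact fun a ha => (show ((maximalIdeal R).map fR).map gA ≤ maximalIdeal T by
      rwa [Ideal.map_map, hgA]) (Ideal.mem_map_of_mem gA ha)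
  obtain ⟨Φ, hΦf, hΦτ⟩ := huniv T gA τ hgAm hcompat
  let f : R →+* A' := f'.comp fR
  have hfl : IsLocalHom f := RingHom.isLocalHom_comp f' fR
  have hff : f.Flat := hRf.comp hf'
  have hfm : (maximalIdeal R).map f = maximalIdeal A' := by
    rw [← Ideal.map_map, hRm, hm']
  have hΦg : Φ.comp f = g := by rw [← RingHom.comp_assoc, hΦf, hgA]
  have hΦmap : (maximalIdeal A').map Φ = (maximalIdeal R).map g := by
    rw [← hfm, Ideal.map_map, hΦg]
  have : CharP A' p := by
    refine charP_of_injective_ringHom (f := f) ?_ p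
    algebraize [f]
    have : IsLocalHom (algebraMap R A') := hfl
    have : Module.FaithfullyFlat R A' := Module.FaithfullyFlat.of_flat_of_isLocalHom
    exact FaithfulSMul.algebraMap_injective R A'
  have : IsAlgClosed (ResidueField A') :=
    IsAlgClosed.of_ringEquiv L (ResidueField A') (RingEquiv.ofBijective _ hτ')
  have hfin : Φ.Finite := by
    obtain ⟨s, φ, -, hC, hXm, hgen, -⟩ := exists_presentation τ' hτ'
    refine RingHom.Finite.of_comp_finite (f := φ) ?_
    refine finite_of_powerSeriesHom (Φ.comp φ) (fun a => ?_) (fun i => ?_) (r := r) ?_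
    · obtain ⟨c, hc⟩ := hτ.2 (residue T a)
      refine ⟨c, ?_⟩
      rw [RingHom.comp_apply, hC, ← RingHom.comp_apply Φ, hΦτ, ← residue_eq_zero_iff, map_sub,
        ← hc, RingHom.comp_apply, sub_self]
    · exact (hΦmap ▸ hgm) (Ideal.mem_map_of_mem Φ (hXm i))
    · refine hr.trans ?_
      rw [← hΦmap, hgen, Ideal.map_span, ← Set.range_comp]
      rfl
  have hΦflat : Φ.Flat := flat_of_finite_of_flat f hfm Φ hfin (hΦg ▸ hflat)
  algebraize [Φ]
  have : Module.Finite A' T := hfin
  have : Module.Flat A' T := hΦflat
  have : IsLocalHom (algebraMap A' T) :=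
    ((IsLocalRing.local_hom_TFAE (algebraMap A' T)).out 0 2).2
      (show (maximalIdeal A').map Φ ≤ maximalIdeal T from hΦmap ▸ hgm)
  rw [← hsSeq_eq_of_flat_map_maximal f hff hfl hfm]
  exact hmain A' (hstable R A' f hfl hff hfm hG) T

/-- The reduction of Lech's inequality for perfect residue fields in characteristic `p` to
module-finite maps out of complete rings with algebraically closed residue field. -/
theorem lech_of_main (hstable : StableUnderFlatExtension Good) (hmain : FiniteLech p Good)
    (R : Type u) [CommRing R] [IsNoetherianRing R] [IsLocalRing R] [CharP R p]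
    [PerfectField (ResidueField R)] (hG : Good R) (S : Type u) [CommRing S] [IsNoetherianRing S]
    [IsLocalRing S] [Algebra R S] [IsLocalHom (algebraMap R S)] [Module.Flat R S] :
    limsup (hsSeq R) atTop ≤ liminf (hsSeq S) atTop := by
  have : CharP S p := by
    refine charP_of_injective_ringHom (f := algebraMap R S) ?_ p
    have : Module.FaithfullyFlat R S := Module.FaithfullyFlat.of_flat_of_isLocalHom
    exact FaithfulSMul.algebraMap_injective R S
  obtain ⟨B, iB, iBl, iBn, iBc, L, iL, iLa, τ, fS, hSl, hSf, hSm, hτ⟩ := exists_cover S p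
  rw [← hsSeq_eq_of_flat_map_maximal fS hSf hSl hSm]
  let g : R →+* B := fS.comp (algebraMap R S)
  have hgl : IsLocalHom g := RingHom.isLocalHom_comp fS (algebraMap R S)
  have hgf : g.Flat := (RingHom.flat_algebraMap_iff.2 inferInstance).comp hSf
  obtain ⟨P, hP, hmP, hmin, hdim⟩ := exists_prime_over g hgl hgf
  refine le_trans ?_ (limsup_hsSeq_atPrime_le τ hτ P hdim)
  let BP := Localization.AtPrime P
  let gP : R →+* BP := (algebraMap B BP).comp g
  have hgPl : IsLocalHom gP := by
    refine ((IsLocalRing.local_hom_TFAE gP).out 0 2).2 ?_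
    rw [← Ideal.map_map, ← Localization.AtPrime.map_eq_maximalIdeal]
    exact Ideal.map_mono hmP
  have hgPf : gP.Flat :=
    hgf.comp (RingHom.flat_algebraMap_iff.2 (IsLocalization.flat BP P.primeCompl))
  have : CharP BP p := by
    refine charP_of_injective_ringHom (f := gP) ?_ p
    algebraize [gP]
    have : IsLocalHom (algebraMap R BP) := hgPl
    have : Module.FaithfullyFlat R BP := Module.FaithfullyFlat.of_flat_of_isLocalHom
    exact FaithfulSMul.algebraMap_injective R BP
  obtain ⟨r, hr⟩ : ∃ r, maximalIdeal BP ^ r ≤ (maximalIdeal R).map gP := by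
    refine exists_pow_le_of_forall_prime_eq _ fun Q hQ hle => ?_
    have hdisj := (IsLocalization.isPrime_iff_isPrime_disjoint P.primeCompl BP Q).1 hQ
    have hQP : Q.comap (algebraMap B BP) ≤ P := fun x hx => by
      by_contra hxP
      exact Set.disjoint_left.1 hdisj.2 hxP hx
    have heq := hmin _ hdisj.1
      (Ideal.map_le_iff_le_comap.1 (by rw [Ideal.map_map]; exact hle)) hQP
    rw [← IsLocalization.map_under P.primeCompl BP Q, ← Localization.AtPrime.map_eq_maximalIdeal]
    exact congrArg (Ideal.map (algebraMap B BP)) heq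
  obtain ⟨T, iT, iTl, iTn, iTc, L', iL', iL'a, τ', fT, hTl, hTf, hTm, hτ'⟩ := exists_cover BP p
  refine le_trans ?_ (liminf_le_limsup)
  rw [← hsSeq_eq_of_flat_map_maximal fT hTf hTl hTm]
  refine lech_of_primary hstable hmain R hG T τ' hτ' (fT.comp gP) (RingHom.isLocalHom_comp fT gP)
    (hgPf.comp hTf) (r := r) ?_
  rw [← hTm, ← Ideal.map_map, ← Ideal.map_pow]
  exact Ideal.map_mono hr

end Vale.Agent.P202
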