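import Vale.Agent.P202.RingSide.Complete

/-!
# P202 Reduce: dimension lemmas for the localisation step
-/

noncomputable section

namespace Vale.Agent.P202

open IsLocalRing

/-- The dimension of a Noetherian local ring is `dimNat`. -/
theorem coe_dimNat (A : Type*) [CommRing A] [IsNoetherianRing A] [IsLocalRing A] :
    ringKrullDim A = ((dimNat A : ℕ) : WithBot ℕ∞) := by
  have h := IsLocalRing.maximalIdeal_height_eq_ringKrullDim (R := A)
  have hne : (maximalIdeal A).height ≠ ⊤ :=
    Ideal.height_ne_top (maximalIdeal.isMaximal A).ne_top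
  obtain ⟨n, hn⟩ := ENat.ne_top_iff_exists.1 hne
  rw [dimNat, ← h, ← hn]
  rfl

theorem dimNat_le {A : Type*} [CommRing A] [IsNoetherianRing A] [IsLocalRing A] {n : ℕ}
    (h : ringKrullDim A ≤ (n : WithBot ℕ∞)) : dimNat A ≤ n := by
  rw [coe_dimNat A] at h
  exact_mod_cast h

/-- An integral extension has at most the dimension of the base. -/
theorem ringKrullDim_le_of_isIntegral {R S : Type*} [CommRing R] [CommRing S] (f : R →+* S)
    (hf : f.IsIntegral) : ringKrullDim S ≤ ringKrullDim R := by
  let := f.toAlgebra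
  refine Order.krullDim_le_of_strictMono (fun P => PrimeSpectrum.comap f P) fun P Q hPQ => ?_
  obtain ⟨hle, x, hxQ, hxP⟩ := SetLike.lt_iff_le_and_exists.1
    (show P.asIdeal < Q.asIdeal from hPQ)
  exact Ideal.comap_lt_comap_of_integral_mem_sdiff (I := P.asIdeal) (J := Q.asIdeal) hle
    ⟨hxQ, hxP⟩ (hf x)

/-- Height and codimension add up to at most the dimension. -/
theorem height_add_ringKrullDim_quotient_le {R : Type*} [CommRing R] (p : Ideal R) [hp : p.IsPrime] :
    (p.height : WithBot ℕ∞) + ringKrullDim (R ⧸ p) ≤ ringKrullDim R := by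
  have : Nonempty (PrimeSpectrum R) := ⟨⟨p, hp⟩⟩
  have h1 : ringKrullDim (R ⧸ p) = (Order.coheight (⟨p, hp⟩ : PrimeSpectrum R) : WithBot ℕ∞) := by
    rw [ringKrullDim_quotient, Order.coheight_eq_krullDim_Ici]
    congr!
  rw [h1, ringKrullDim, Order.krullDim_eq_iSup_height_add_coheight_of_nonempty,
    ← WithBot.coe_add, WithBot.coe_le_coe]
  refine le_trans (le_of_eq ?_) (le_iSup _ (⟨p, hp⟩ : PrimeSpectrum R))
  rw [← PrimeSpectrum.height_eq_orderHeight]

/-- Cutting by an element outside all minimal primes lowers the dimension. -/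
theorem ringKrullDim_quotient_succ_le_of_forall_notMem {R : Type*} [CommRing R] {r : R}
    (hr : ∀ q ∈ minimalPrimes R, r ∉ q) :
    ringKrullDim (R ⧸ Ideal.span {r}) + 1 ≤ ringKrullDim R := by
  by_cases hr' : Ideal.span {r} = ⊤
  · rw [hr', ringKrullDim_eq_bot_of_subsingleton]
    simp
  have : Nonempty (PrimeSpectrum.zeroLocus (R := R) (Ideal.span {r})) := by
    rwa [Set.nonempty_coe_sort, Set.nonempty_iff_ne_empty, ne_eq,
      PrimeSpectrum.zeroLocus_empty_iff_eq_top]
  have := Ideal.Quotient.nontrivial_iff.mpr hr'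
  have := (Ideal.Quotient.mk (Ideal.span {r})).domain_nontrivial
  rw [ringKrullDim_quotient, Order.krullDim_eq_iSup_length, ringKrullDim,
    Order.krullDim_eq_iSup_length, ← WithBot.coe_one, ← WithBot.coe_add,
    ENat.iSup_add, WithBot.coe_le_coe, iSup_le_iff]
  intro l
  obtain ⟨p, hp, hp'⟩ := Ideal.exists_minimalPrimes_le (J := l.head.1.asIdeal) bot_le
  let p' : PrimeSpectrum R := ⟨p, hp.1.1⟩
  have hp' : p' < l.head := lt_of_le_of_ne hp' fun h =>
    hr p hp (show r ∈ p'.asIdeal by
      rw [h]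
      exact Set.singleton_subset_iff.1
        (le_trans Ideal.subset_span ((PrimeSpectrum.mem_zeroLocus _ _).1 l.head.2)))
  refine le_trans ?_ (le_iSup _ ((l.map Subtype.val (fun _ _ ↦ id)).cons p' hp'))
  simp [RelSeries.cons, RelSeries.append, LTSeries.map]

end Vale.Agent.P202
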