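import Vale.Agent.P202.Reduce.CoeffField

/-!
# P202 Reduce: invariance under flat local maps with `m B = m_B`, and completions
-/

noncomputable section

namespace Vale.Agent.P202

open IsLocalRing
open scoped TensorProduct

universe u

/-- There is a regular sequence of `dimNat` elements in the maximal ideal. -/
def HasRegularSop (R : Type*) [CommRing R] [IsLocalRing R] : Prop :=
  ∃ x : Fin (dimNat R) → R, (∀ i, x i ∈ maximalIdeal R) ∧
    RingTheory.Sequence.IsWeaklyRegular R (List.ofFn x)

section Invariant

variable {A B : Type*} [CommRing A] [CommRing B] [IsNoetherianRing A] [IsNoetherianRing B]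
  [IsLocalRing A] [IsLocalRing B] (f : A →+* B)

theorem dimNat_eq_of_flat_map_maximal (hf : f.Flat) (hloc : IsLocalHom f)
    (hm : (maximalIdeal A).map f = maximalIdeal B) : dimNat B = dimNat A := by
  algebraize [f]
  have : IsLocalHom (algebraMap A B) := hloc
  have hc : (maximalIdeal B).comap (algebraMap A B) = maximalIdeal A := by
    ext a
    simp [mem_nonunits_iff]
  have : (maximalIdeal B).LiesOver (maximalIdeal A) := ⟨hc.symm⟩
  have h := Ideal.height_eq_height_add_of_liesOver_of_hasGoingDown (R := A) (maximalIdeal A)
    (maximalIdeal B)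
  have hm' : (maximalIdeal A).map (algebraMap A B) = maximalIdeal B := hm
  have h0 : ((maximalIdeal B).map
      (Ideal.Quotient.mk ((maximalIdeal A).map (algebraMap A B)))).height = 0 := by
    set J := (maximalIdeal A).map (algebraMap A B)
    rw [show (maximalIdeal B).map (Ideal.Quotient.mk J) = ⊥ by
      rw [← hm', Ideal.map_quotient_self]]
    have hmax : J.IsMaximal := hm'.symm ▸ maximalIdeal.isMaximal B
    let := Ideal.Quotient.field J
    exact Ideal.height_bot
  rw [h0, add_zero] at h
  simp only [dimNat, ← IsLocalRing.maximalIdeal_height_eq_ringKrullDim, h]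

omit [IsNoetherianRing A] [IsNoetherianRing B] in
theorem length_pow_eq_of_flat_map_maximal (hf : f.Flat) (hloc : IsLocalHom f)
    (hm : (maximalIdeal A).map f = maximalIdeal B) (N : ℕ) :
    Module.length B (B ⧸ maximalIdeal B ^ N) = Module.length A (A ⧸ maximalIdeal A ^ N) := by
  algebraize [f]
  have : IsLocalHom (algebraMap A B) := hloc
  have hm' : (maximalIdeal A).map (algebraMap A B) = maximalIdeal B := hm
  have h := IsLocalRing.length_baseChange A B (A ⧸ maximalIdeal A ^ N)
  rw [← (Algebra.TensorProduct.quotIdealMapEquivTensorQuot B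
    (maximalIdeal A ^ N)).toLinearEquiv.length_eq, Ideal.map_pow, hm'] at h
  have : IsSimpleModule B (B ⧸ maximalIdeal B) := by
    rw [isSimpleModule_iff_isCoatom]
    exact (maximalIdeal.isMaximal B).out
  rw [h, Module.length_eq_one B (B ⧸ maximalIdeal B), mul_one]

theorem hsSeq_eq_of_flat_map_maximal (hf : f.Flat) (hloc : IsLocalHom f)
    (hm : (maximalIdeal A).map f = maximalIdeal B) : hsSeq B = hsSeq A := by
  funext N
  rw [hsSeq, hsSeq, dimNat_eq_of_flat_map_maximal f hf hloc hm,
    length_pow_eq_of_flat_map_maximal f hf hloc hm]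

theorem hasRegularSop_of_flat_map_maximal (hf : f.Flat) (hloc : IsLocalHom f)
    (hm : (maximalIdeal A).map f = maximalIdeal B) (h : HasRegularSop A) : HasRegularSop B := by
  have hd := dimNat_eq_of_flat_map_maximal f hf hloc hm
  algebraize [f]
  obtain ⟨x, hx, hreg⟩ := h
  refine ⟨fun i => f (x (Fin.cast hd i)), fun i => hm ▸ Ideal.mem_map_of_mem f (hx _), ?_⟩
  have h' := hreg.of_flat (S := B)
  have e : List.map (algebraMap A B) (List.ofFn x) = List.ofFn fun i => f (x (Fin.cast hd i)) := by
    rw [List.map_ofFn, List.ofFn_congr hd.symm]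
    rfl
  rwa [e] at h'

end Invariant

section Surjective

variable {k R : Type*} [CommRing k] [CommRing R] [IsLocalRing R] {ι : Type*} [Finite ι]

/-- A map from power series whose variables generate the maximal ideal and which is onto the
residue field is surjective; the target is not assumed Noetherian. -/
theorem surjective_powerSeriesHom [IsHausdorff (maximalIdeal R) R]
    (φ : MvPowerSeries ι k →+* R)
    (hres : ∀ a, ∃ c, a - φ (MvPowerSeries.C c) ∈ maximalIdeal R)
    (hgen : maximalIdeal R = Ideal.span (Set.range fun i => φ (MvPowerSeries.X i))) :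
    Function.Surjective φ := by
  let := φ.toAlgebra
  let I : Ideal (MvPowerSeries ι k) := Ideal.span (Set.range MvPowerSeries.X)
  have hI : I.map φ = maximalIdeal R := by
    rw [hgen, Ideal.map_span, ← Set.range_comp]
    rfl
  have hsmul : ∀ N, (I ^ N • ⊤ : Submodule (MvPowerSeries ι k) R) =
      (maximalIdeal R ^ N).restrictScalars (MvPowerSeries ι k) := fun N => by
    rw [Ideal.smul_top_eq_map, RingHom.algebraMap_toAlgebra, Ideal.map_pow, hI]
  have : IsHausdorff I R := ⟨fun a ha => IsHausdorff.haus' (I := maximalIdeal R) a fun N => by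
    have h := SModEq.zero.1 (ha N)
    rw [hsmul, Submodule.restrictScalars_mem] at h
    rw [SModEq.zero, smul_eq_mul, Ideal.mul_top]
    exact h⟩
  refine surjective_of_mkQ_comp_surjective (I := I)
    (f := Algebra.linearMap (MvPowerSeries ι k) R) fun y => ?_
  obtain ⟨a, rfl⟩ := Submodule.mkQ_surjective _ y
  obtain ⟨c, hc⟩ := hres a
  refine ⟨MvPowerSeries.C c, ?_⟩
  rw [LinearMap.comp_apply, Submodule.mkQ_apply, Submodule.mkQ_apply, eq_comm,
    Submodule.Quotient.eq, ← pow_one I, hsmul, Submodule.restrictScalars_mem, pow_one]
  exact hc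

end Surjective

section Completion

variable (R : Type u) [CommRing R] [IsNoetherianRing R] [IsLocalRing R]

/-- The completion of a Noetherian local ring of characteristic `p`. -/
theorem exists_completion (p : ℕ) [Fact p.Prime] [CharP R p] :
    ∃ (A : Type u) (_ : CommRing A) (_ : IsLocalRing A) (_ : IsNoetherianRing A)
      (_ : IsAdicComplete (maximalIdeal A) A) (_ : CharP A p) (f : R →+* A),
      IsLocalHom f ∧ f.Flat ∧ (maximalIdeal R).map f = maximalIdeal A ∧
      ∃ e : ResidueField R →+* ResidueField A, Function.Bijective e ∧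
        e.comp (residue R) = (residue A).comp f := by
  set A := AdicCompletion (maximalIdeal R) R
  have hinj : Function.Injective (algebraMap R A) := by
    have : Module.FaithfullyFlat R A := Module.FaithfullyFlat.of_flat_of_isLocalHom
    exact FaithfulSMul.algebraMap_injective R A
  have : CharP A p := charP_of_injective_ringHom hinj p
  obtain ⟨σ, hσ⟩ := exists_coefficientField' A p
  obtain ⟨n, x, hx⟩ := Submodule.fg_iff_exists_fin_generating_family.1
    (IsNoetherian.noetherian (maximalIdeal R))
  have hmax : maximalIdeal A = Ideal.span (Set.range fun i => algebraMap R A (x i)) := by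
    refine AdicCompletion.maximalIdeal_eq_map.trans
      ((congrArg (Ideal.map (algebraMap R A)) hx).symm.trans ?_)
    show Ideal.map (algebraMap R A) (Ideal.span (Set.range x)) = _
    rw [Ideal.map_span, ← Set.range_comp]
    rfl
  obtain ⟨φ, hC, hX, -⟩ := exists_evalHom σ (fun i => algebraMap R A (x i))
    fun i => hmax ▸ Ideal.subset_span (Set.mem_range_self i)
  have hN : IsNoetherianRing A := isNoetherianRing_of_surjective _ _ φ
    (surjective_powerSeriesHom φ (fun a => ⟨residue A a, by
      rw [← residue_eq_zero_iff, map_sub, hC, hσ, sub_self]⟩) (by simpa only [hX] using hmax))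
  exact ⟨A, inferInstance, inferInstance, hN, inferInstance, ‹_›, algebraMap R A, inferInstance,
    RingHom.flat_algebraMap_iff.2 inferInstance, AdicCompletion.maximalIdeal_eq_map.symm,
    ResidueField.map (algebraMap R A), AdicCompletion.residueField_map_bijective R,
    RingHom.ext fun _ => rfl⟩

end Completion

end Vale.Agent.P202
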