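import Vale.Agent.P202.Reduce.SeriesFlat

/-!
# P202 Reduce: extending the residue field of a complete local ring with a coefficient field
-/

noncomputable section

namespace Vale.Agent.P202

open IsLocalRing
open scoped TensorProduct

universe u

/-- Flatness descends to the quotients by an ideal and by its extension. -/
theorem flat_quotient_map {R S : Type*} [CommRing R] [CommRing S] (f : R →+* S) (hf : f.Flat)
    (I : Ideal R) :
    (Ideal.quotientMap (I.map f) f Ideal.le_comap_map).Flat := by
  algebraize [f]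
  let g : R ⧸ I →+* S ⧸ I.map f := Ideal.quotientMap (I.map f) f Ideal.le_comap_map
  let := g.toAlgebra
  show Module.Flat (R ⧸ I) (S ⧸ I.map f)
  have : IsScalarTower R (R ⧸ I) (S ⧸ I.map f) := IsScalarTower.of_algebraMap_eq' rfl
  have hI : (I • ⊤ : Submodule R S) = (I.map f).restrictScalars R := Ideal.smul_top_eq_map I
  let e₀ : (S ⧸ I.map f) ≃ₗ[R] (R ⧸ I) ⊗[R] S :=
    ((Submodule.Quotient.restrictScalarsEquiv R (I.map f)).symm ≪≫ₗ
      Submodule.quotEquivOfEq _ _ hI.symm) ≪≫ₗ (TensorProduct.quotTensorEquivQuotSMul S I).symm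
  exact Module.Flat.of_linearEquiv
    (e₀.extendScalarsOfSurjective (S := R ⧸ I) Ideal.Quotient.mk_surjective)

/-- A complete Noetherian local ring with a coefficient field is a quotient of power series. -/
theorem exists_presentation {K A : Type u} [Field K] [CommRing A] [IsLocalRing A]
    [IsNoetherianRing A] [IsAdicComplete (maximalIdeal A) A] (σ : K →+* A)
    (hσ : Function.Bijective ((residue A).comp σ)) :
    ∃ (n : ℕ) (φ : MvPowerSeries (Fin n) K →+* A), Function.Surjective φ ∧
      (∀ c, φ (MvPowerSeries.C c) = σ c) ∧ (∀ i, φ (MvPowerSeries.X i) ∈ maximalIdeal A) ∧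
      maximalIdeal A = Ideal.span (Set.range fun i => φ (MvPowerSeries.X i)) ∧
      ∀ N F, φ F - MvPolynomial.eval₂Hom σ (fun i => φ (MvPowerSeries.X i))
        (MvPowerSeries.truncTotal N F) ∈ maximalIdeal A ^ N := by
  obtain ⟨n, x, hx⟩ := Submodule.fg_iff_exists_fin_generating_family.1
    (IsNoetherian.noetherian (maximalIdeal A))
  have hxm : ∀ i, x i ∈ maximalIdeal A := fun i =>
    hx ▸ Submodule.subset_span (Set.mem_range_self i)
  obtain ⟨φ, hC, hX, hkey⟩ := exists_evalHom σ x hxm
  have hgen : maximalIdeal A = Ideal.span (Set.range fun i => φ (MvPowerSeries.X i)) := by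
    simp only [hX]
    exact hx.symm
  refine ⟨n, φ, ?_, hC, fun i => hX i ▸ hxm i, hgen, by simpa only [hX] using hkey⟩
  have hres : ∀ a, ∃ c, a - φ (MvPowerSeries.C c) ∈ maximalIdeal A := fun a => by
    obtain ⟨c, hc⟩ := hσ.2 (residue A a)
    exact ⟨c, by rw [hC, ← residue_eq_zero_iff, map_sub, ← hc]; simp⟩
  have hfin : φ.Finite := finite_of_powerSeriesHom φ hres (fun i => hX i ▸ hxm i) (r := 1)
    (by rw [pow_one, ← hgen])
  algebraize [φ]
  suffices h : LinearMap.range (Algebra.linearMap (MvPowerSeries (Fin n) K) A) = ⊤ from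
    LinearMap.range_eq_top.1 h
  rw [eq_top_iff]
  refine Submodule.le_of_le_smul_of_le_jacobson_bot Module.Finite.fg_top
    (I := maximalIdeal (MvPowerSeries (Fin n) K)) ?_ fun a _ => ?_
  · rw [IsLocalRing.jacobson_eq_maximalIdeal _ bot_ne_top]
  · obtain ⟨c, hc⟩ := hres a
    refine Submodule.mem_sup.2 ⟨φ (MvPowerSeries.C c), ⟨_, rfl⟩, a - φ (MvPowerSeries.C c), ?_,
      add_sub_cancel _ _⟩
    rw [Ideal.smul_top_eq_map, Submodule.restrictScalars_mem, maximalIdeal_mvPowerSeries,
      Ideal.map_span, ← Set.range_comp]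
    rw [hgen] at hc
    exact hc

/-- Extension of the residue field of a complete local ring along a coefficient field. -/
theorem exists_gonflement {K L A : Type u} [Field K] [Field L] [Algebra K L] [CommRing A]
    [IsLocalRing A] [IsNoetherianRing A] [IsAdicComplete (maximalIdeal A) A] (σ : K →+* A)
    (hσ : Function.Bijective ((residue A).comp σ)) :
    ∃ (A' : Type u) (_ : CommRing A') (_ : IsLocalRing A') (_ : IsNoetherianRing A')
      (_ : IsAdicComplete (maximalIdeal A') A') (f : A →+* A') (σ' : L →+* A'),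
      IsLocalHom f ∧ f.Flat ∧ (maximalIdeal A).map f = maximalIdeal A' ∧
      Function.Bijective ((residue A').comp σ') ∧ f.comp σ = σ'.comp (algebraMap K L) ∧
      ∀ (B : Type u) [CommRing B] [IsLocalRing B] [IsAdicComplete (maximalIdeal B) B]
        (ψ : A →+* B) (τ : L →+* B), (∀ a ∈ maximalIdeal A, ψ a ∈ maximalIdeal B) →
        ψ.comp σ = τ.comp (algebraMap K L) →
        ∃ Φ : A' →+* B, Φ.comp f = ψ ∧ Φ.comp σ' = τ := by
  obtain ⟨n, φ, hφ, hC, hXm, hgen, hkey⟩ := exists_presentation σ hσ
  let ι := scalarExt K L n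
  let I := RingHom.ker φ
  have hι : ∀ i : Fin n, ι (MvPowerSeries.X i) = MvPowerSeries.X i := fun i =>
    MvPowerSeries.map_X _ i
  have hIm : I ≤ maximalIdeal _ := IsLocalRing.le_maximalIdeal (RingHom.ker_ne_top φ)
  have hmap : (maximalIdeal (MvPowerSeries (Fin n) K)).map ι =
      maximalIdeal (MvPowerSeries (Fin n) L) := by
    rw [maximalIdeal_mvPowerSeries, maximalIdeal_mvPowerSeries, Ideal.map_span, ← Set.range_comp]
    congr 2
    exact funext hι
  let J := I.map ι
  have hJm : J ≤ maximalIdeal (MvPowerSeries (Fin n) L) := hmap ▸ Ideal.map_mono hIm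
  have hJne : J ≠ ⊤ := fun h => (maximalIdeal.isMaximal _).ne_top (top_le_iff.1 (h ▸ hJm))
  let A' := MvPowerSeries (Fin n) L ⧸ J
  have : Nontrivial A' := Ideal.Quotient.nontrivial_iff.2 hJne
  let mk : MvPowerSeries (Fin n) L →+* A' := Ideal.Quotient.mk J
  have hloc : IsLocalRing A' := IsLocalRing.of_surjective' mk Ideal.Quotient.mk_surjective
  have hmax : (maximalIdeal (MvPowerSeries (Fin n) L)).map mk = maximalIdeal A' :=
    IsLocalRing.map_maximalIdeal_of_surjective mk Ideal.Quotient.mk_surjective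
  have hPcomp : IsAdicComplete (maximalIdeal (MvPowerSeries (Fin n) L))
      (MvPowerSeries (Fin n) L) := by
    rw [maximalIdeal_mvPowerSeries]; infer_instance
  have hcomp : IsAdicComplete (maximalIdeal A') A' := by
    have := isAdicComplete_of_finite (R := MvPowerSeries (Fin n) L) A'
    rw [← hmax]
    exact (IsAdicComplete.map_algebraMap_iff (I := maximalIdeal (MvPowerSeries (Fin n) L))
      (S := A') (M := A')).2 this
  let e : MvPowerSeries (Fin n) K ⧸ I ≃+* A := RingHom.quotientKerEquivOfSurjective hφ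
  let q : MvPowerSeries (Fin n) K ⧸ I →+* A' := Ideal.quotientMap J ι Ideal.le_comap_map
  let f : A →+* A' := q.comp e.symm.toRingHom
  have hf : ∀ F, f (φ F) = mk (ι F) := fun F => by
    have : e.symm (φ F) = Ideal.Quotient.mk I F := e.symm_apply_eq.2 rfl
    simp [f, q, this, mk]
    exact Ideal.quotientMap_mk
  let σ' : L →+* A' := mk.comp MvPowerSeries.C
  have hmf : (maximalIdeal A).map f = maximalIdeal A' := by
    rw [← hmax, maximalIdeal_mvPowerSeries, hgen, Ideal.map_span, Ideal.map_span,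
      ← Set.range_comp, ← Set.range_comp]
    congr 2
    funext i
    simp [hf, hι]
  refine ⟨A', inferInstance, hloc, inferInstance, hcomp, f, σ', ⟨fun a ha => ?_⟩, ?_, hmf, ?_, ?_, ?_⟩
  · by_contra hna
    exact (mem_maximalIdeal _).1 (hmf ▸ Ideal.mem_map_of_mem f ((mem_maximalIdeal a).2 hna)) ha
  · exact RingHom.Flat.comp (RingHom.Flat.of_bijective e.symm.bijective)
      (flat_quotient_map ι (flat_scalarExt K L n) I)
  · refine ⟨((residue A').comp σ').injective, fun y => ?_⟩
    obtain ⟨a, rfl⟩ := residue_surjective y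
    obtain ⟨F, rfl⟩ := Ideal.Quotient.mk_surjective a
    refine ⟨MvPowerSeries.constantCoeff F, ?_⟩
    rw [RingHom.comp_apply, ← sub_eq_zero, ← map_sub, residue_eq_zero_iff, ← hmax]
    have hmem := sub_C_constantCoeff_mem_span_X F
    rw [← maximalIdeal_mvPowerSeries] at hmem
    have := neg_mem (Ideal.mem_map_of_mem mk hmem)
    rwa [← map_neg, neg_sub, map_sub] at this
  · ext c
    simp only [RingHom.comp_apply, ← hC, hf, σ']
    simp [ι]
  · intro B _ _ _ ψ τ hψ hcompat
    obtain ⟨Φ₀, hΦC, hΦX, hΦkey⟩ := exists_evalHom τ (fun i => ψ (φ (MvPowerSeries.X i)))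
      (fun i => hψ _ (hXm i))
    have hΦι : ∀ F, Φ₀ (ι F) = ψ (φ F) := by
      intro F
      refine sub_eq_zero.1 (IsHausdorff.haus' (I := maximalIdeal B) _ fun N => ?_)
      rw [SModEq.zero, smul_eq_mul, Ideal.mul_top]
      have h1 := hΦkey N (ι F)
      have h2 : ψ (φ F - MvPolynomial.eval₂Hom σ (fun i => φ (MvPowerSeries.X i))
          (MvPowerSeries.truncTotal N F)) ∈ maximalIdeal B ^ N := by
        have hle : (maximalIdeal A).map ψ ≤ maximalIdeal B := Ideal.map_le_iff_le_comap.2 hψ
        exact Ideal.pow_right_mono hle N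
          (Ideal.map_pow ψ (maximalIdeal A) N ▸ Ideal.mem_map_of_mem ψ (hkey N F))
      have htr : MvPowerSeries.truncTotal N (ι F) =
          MvPolynomial.map (algebraMap K L) (MvPowerSeries.truncTotal N F) := by
        ext t
        rw [MvPolynomial.coeff_map, MvPowerSeries.coeff_truncTotal_eq_ite,
          MvPowerSeries.coeff_truncTotal_eq_ite]
        split_ifs <;> simp [ι]
      have h3 : MvPolynomial.eval₂Hom τ (fun i => ψ (φ (MvPowerSeries.X i)))
          (MvPowerSeries.truncTotal N (ι F)) = ψ (MvPolynomial.eval₂Hom σ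
            (fun i => φ (MvPowerSeries.X i)) (MvPowerSeries.truncTotal N F)) := by
        rw [htr, MvPolynomial.coe_eval₂Hom, MvPolynomial.eval₂_map, ← hcompat,
          MvPolynomial.coe_eval₂Hom, MvPolynomial.eval₂_comp_left ψ]
        rfl
      rw [h3] at h1
      rw [map_sub] at h2
      simpa using sub_mem h1 h2
    have hker : ∀ G ∈ J, Φ₀ G = 0 := by
      intro G hG
      refine RingHom.mem_ker.1 ((Ideal.map_le_iff_le_comap.2 fun F (hF : F ∈ I) => ?_) hG)
      rw [Ideal.mem_comap, RingHom.mem_ker, hΦι, RingHom.mem_ker.1 hF, map_zero]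
    refine ⟨Ideal.Quotient.lift J Φ₀ hker, ?_, ?_⟩
    · ext a
      obtain ⟨F, rfl⟩ := hφ a
      simp [hf, mk]
      exact (Ideal.Quotient.lift_mk _ _ _).trans (hΦι F)
    · ext c
      simp [σ', mk]
      exact (Ideal.Quotient.lift_mk _ _ _).trans (hΦC c)

end Vale.Agent.P202
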