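import Vale.Agent.P202.Reduce.CutDim

/-!
# P202 Reduce: linear normalisation at a prime of a power series ring

For a prime `p` of `L[[X₁, ..., X_D]]`, `L` infinite, linear forms `z` (as many as `dim V/p`)
make `V/p` primary to the maximal ideal, and the complementary forms `w` are at most `h` many when
`D ≤ dim V/p + h`.
-/

noncomputable section

namespace Vale.Agent.P202

open IsLocalRing

/-- If the only prime containing `I` is the maximal ideal then `I` contains a power of it. -/
theorem exists_pow_le_of_forall_prime_eq {A : Type*} [CommRing A] [IsNoetherianRing A]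
    [IsLocalRing A] (I : Ideal A) (h : ∀ P : Ideal A, P.IsPrime → I ≤ P → P = maximalIdeal A) :
    ∃ r, maximalIdeal A ^ r ≤ I := by
  refine Ideal.exists_pow_le_of_le_radical_of_fg ?_ (IsNoetherian.noetherian _)
  rw [Ideal.radical_eq_sInf]
  exact le_sInf fun P hP => (h P hP.2 hP.1).ge

theorem exists_pow_le_of_ringKrullDim_le_zero {A : Type*} [CommRing A] [IsNoetherianRing A]
    [IsLocalRing A] (I : Ideal A) (h : ringKrullDim (A ⧸ I) ≤ 0) :
    ∃ r, maximalIdeal A ^ r ≤ I := by
  refine exists_pow_le_of_forall_prime_eq I fun P hP hIP => ?_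
  have : Ring.KrullDimLE 0 (A ⧸ I) := (Order.krullDimLE_iff _ _).2 h
  have hk : RingHom.ker (Ideal.Quotient.mk I) ≤ P := by rwa [Ideal.mk_ker]
  have := Ideal.map_isPrime_of_surjective Ideal.Quotient.mk_surjective hk
  have hmax : (P.map (Ideal.Quotient.mk I)).IsMaximal := Ideal.IsPrime.isMaximal' this
  have := Ideal.comap_isMaximal_of_surjective _ Ideal.Quotient.mk_surjective
    (K := P.map (Ideal.Quotient.mk I))
  rw [Ideal.comap_map_of_surjective' _ Ideal.Quotient.mk_surjective, sup_eq_left.2 hk] at this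
  exact IsLocalRing.eq_maximalIdeal this

theorem le_of_add_one_le_add_one {a : WithBot ℕ∞} {n : ℕ}
    (h : a + 1 ≤ ((n + 1 : ℕ) : WithBot ℕ∞)) : a ≤ (n : WithBot ℕ∞) := by
  cases a with
  | bot => simp
  | coe a =>
    rw [← WithBot.coe_one, ← WithBot.coe_add] at h
    have h' : a + 1 ≤ ((n : ℕ∞) + 1) := by exact_mod_cast h
    exact_mod_cast (ENat.add_le_add_iff_right ENat.one_ne_top).1 h'

section Forms

variable (L : Type*) [Field L] (D : ℕ)

/-- Linear forms in the variables. -/
def linForm : (Fin D → L) →ₗ[L] MvPowerSeries (Fin D) L :=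
  Fintype.linearCombination L MvPowerSeries.X

variable {L D}

theorem linForm_single (l : Fin D) : linForm L D (Pi.single l 1) = MvPowerSeries.X l := by
  simp [linForm, Fintype.linearCombination_apply_single]

theorem linForm_mem (c : Fin D → L) :
    linForm L D c ∈ maximalIdeal (MvPowerSeries (Fin D) L) := by
  rw [linForm, Fintype.linearCombination_apply, maximalIdeal_mvPowerSeries]
  exact Submodule.sum_mem _ fun l _ => Submodule.smul_of_tower_mem _ (c l)
    (Ideal.subset_span (Set.mem_range_self l))

theorem span_linForm_le {ι : Type*} (c : ι → Fin D → L) :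
    Ideal.span (Set.range fun i => linForm L D (c i)) ≤
      maximalIdeal (MvPowerSeries (Fin D) L) := by
  rw [Ideal.span_le]
  rintro _ ⟨i, rfl⟩
  exact linForm_mem _

/-- The ideal of forms in a space is generated by the forms in a spanning family. -/
theorem linForm_mem_of_mem_span {ι : Type*} (c : ι → Fin D → L) {v : Fin D → L}
    (hv : v ∈ Submodule.span L (Set.range c)) :
    linForm L D v ∈ Ideal.span (Set.range fun i => linForm L D (c i)) := by
  refine Submodule.span_induction ?_ ?_ ?_ ?_ hv
  · rintro _ ⟨i, rfl⟩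
    exact Ideal.subset_span ⟨i, rfl⟩
  · simp
  · intro x y _ _ hx hy
    rw [map_add]
    exact add_mem hx hy
  · intro a x _ hx
    rw [map_smul]
    exact Submodule.smul_of_tower_mem _ a hx

/-- Forms cut down any ideal to one primary to the maximal ideal, one for each dimension. -/
theorem exists_forms [Infinite L] : ∀ (n : ℕ) (I : Ideal (MvPowerSeries (Fin D) L)),
    ringKrullDim (MvPowerSeries (Fin D) L ⧸ I) ≤ (n : WithBot ℕ∞) →
    ∃ (c : Fin n → Fin D → L) (r : ℕ), maximalIdeal (MvPowerSeries (Fin D) L) ^ r ≤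
      I ⊔ Ideal.span (Set.range fun i => linForm L D (c i))
  | 0, I, h => by
    obtain ⟨r, hr⟩ := exists_pow_le_of_ringKrullDim_le_zero I (by simpa using h)
    exact ⟨Fin.elim0, r, le_sup_of_le_left hr⟩
  | n + 1, I, h => by
    classical
    set V := MvPowerSeries (Fin D) L
    by_cases hm : maximalIdeal V ∈ I.minimalPrimes
    · obtain ⟨r, hr⟩ := exists_pow_le_of_forall_prime_eq I fun P hP hIP =>
        le_antisymm (IsLocalRing.le_maximalIdeal hP.ne_top)
          (hm.2 ⟨hP, hIP⟩ (IsLocalRing.le_maximalIdeal hP.ne_top))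
      exact ⟨0, r, le_sup_of_le_left hr⟩
    have : Finite I.minimalPrimes := (Ideal.finite_minimalPrimes_of_isNoetherianRing V I).to_subtype
    obtain ⟨c₀, hc₀⟩ := Submodule.exists_forall_notMem_of_forall_ne_top
      (fun q : I.minimalPrimes => ((q : Ideal V).restrictScalars L).comap (linForm L D))
      (fun q htop => hm (by
        have hq : maximalIdeal V ≤ q := by
          rw [maximalIdeal_mvPowerSeries, Ideal.span_le]
          rintro _ ⟨l, rfl⟩
          rw [← linForm_single]
          have := (Submodule.eq_top_iff'.1 htop) (Pi.single l 1)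
          simpa using this
        have := le_antisymm (IsLocalRing.le_maximalIdeal q.2.1.1.ne_top) hq
        exact this ▸ q.2))
    set z := linForm L D c₀
    have hz : ∀ q ∈ minimalPrimes (V ⧸ I), Ideal.Quotient.mk I z ∉ q := by
      intro q hq hzq
      have hmem : q.comap (Ideal.Quotient.mk I) ∈ I.minimalPrimes := by
        rw [Ideal.minimalPrimes_eq_comap]
        exact ⟨q, hq, rfl⟩
      exact hc₀ ⟨_, hmem⟩ hzq
    have h1 := ringKrullDim_quotient_succ_le_of_forall_notMem hz
    have e : ((V ⧸ I) ⧸ Ideal.span {Ideal.Quotient.mk I z}) ≃+* V ⧸ (I ⊔ Ideal.span {z}) :=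
      (Ideal.quotEquivOfEq (by rw [Ideal.map_span, Set.image_singleton])).trans
        (DoubleQuot.quotQuotEquivQuotSup I (Ideal.span {z}))
    rw [ringKrullDim_eq_of_ringEquiv e] at h1
    obtain ⟨c, r, hr⟩ := exists_forms n (I ⊔ Ideal.span {z})
      (le_of_add_one_le_add_one (h1.trans h))
    refine ⟨Fin.snoc c c₀, r, hr.trans (sup_le (sup_le le_sup_left ?_) ?_)⟩
    · refine le_sup_of_le_right ((Ideal.span_singleton_le_iff_mem _).2
        (Ideal.subset_span ⟨Fin.last n, by simp [z]⟩))
    · refine le_sup_of_le_right (Ideal.span_le.2 ?_)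
      rintro _ ⟨i, rfl⟩
      exact Ideal.subset_span ⟨i.castSucc, by simp⟩

/-- An ideal primary to the maximal ideal modulo `p` needs at least `dim V/p` forms. -/
theorem dimNat_quotient_le_finrank {ι : Type*} (p : Ideal (MvPowerSeries (Fin D) L)) [p.IsPrime]
    (c : ι → Fin D → L) {r : ℕ} (hr : maximalIdeal (MvPowerSeries (Fin D) L) ^ r ≤
      p ⊔ Ideal.span (Set.range fun i => linForm L D (c i))) :
    dimNat (MvPowerSeries (Fin D) L ⧸ p) ≤
      Module.finrank L (Submodule.span L (Set.range c)) := by
  classical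
  set V := MvPowerSeries (Fin D) L
  set mk := Ideal.Quotient.mk p
  let b := Module.finBasis L (Submodule.span L (Set.range c))
  let s : Finset (V ⧸ p) := Finset.univ.image fun i => mk (linForm L D (b i : Fin D → L))
  have : IsLocalRing (V ⧸ p) := IsLocalRing.of_surjective' mk Ideal.Quotient.mk_surjective
  have hmax : (maximalIdeal V).map mk = maximalIdeal (V ⧸ p) :=
    IsLocalRing.map_maximalIdeal_of_surjective mk Ideal.Quotient.mk_surjective
  have hsb : Submodule.span L (Set.range fun i => (b i : Fin D → L)) =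
      Submodule.span L (Set.range c) := by
    have := congrArg (Submodule.map (Submodule.span L (Set.range c)).subtype) b.span_eq
    rw [Submodule.map_span, Submodule.map_top, Submodule.range_subtype, ← Set.range_comp] at this
    exact this
  have hle : maximalIdeal (V ⧸ p) ^ r ≤ Ideal.span (s : Set (V ⧸ p)) := by
    rw [← hmax, ← Ideal.map_pow]
    refine (Ideal.map_mono hr).trans ?_
    rw [Ideal.map_sup, Ideal.map_quotient_self, bot_sup_eq, Ideal.map_span, Ideal.span_le]
    rintro _ ⟨_, ⟨i, rfl⟩, rfl⟩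
    have hi := Ideal.mem_map_of_mem mk
      (linForm_mem_of_mem_span (fun i => (b i : Fin D → L))
        (show c i ∈ _ by rw [hsb]; exact Submodule.subset_span ⟨i, rfl⟩))
    rw [Ideal.map_span, ← Set.range_comp] at hi
    refine Ideal.span_mono ?_ hi
    rintro _ ⟨j, rfl⟩
    exact Finset.mem_image_of_mem _ (Finset.mem_univ j)
  have hsm : Ideal.span (s : Set (V ⧸ p)) ≤ maximalIdeal (V ⧸ p) := by
    rw [Ideal.span_le]
    intro a ha
    obtain ⟨i, -, rfl⟩ := Finset.mem_image.1 ha
    exact hmax ▸ Ideal.mem_map_of_mem mk (linForm_mem _)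
  have hmin : maximalIdeal (V ⧸ p) ∈ (Ideal.span (s : Set (V ⧸ p))).minimalPrimes :=
    ⟨⟨(maximalIdeal.isMaximal _).isPrime, hsm⟩, fun P ⟨hP, hP'⟩ _ =>
      hP.le_of_pow_le (hle.trans hP')⟩
  refine dimNat_le ?_
  rw [← IsLocalRing.maximalIdeal_height_eq_ringKrullDim]
  have := (Ideal.height_le_card_of_mem_minimalPrimes_span_finset hmin).trans
    (Nat.cast_le.2 (Finset.card_image_le.trans (by simp)) :
      ((s.card : ℕ) : ℕ∞) ≤ (Module.finrank L (Submodule.span L (Set.range c)) : ℕ∞))
  exact WithBot.coe_le_coe.2 this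

/-- Normalising forms at a prime and complementary forms. -/
theorem exists_normalForms [Infinite L] (p : Ideal (MvPowerSeries (Fin D) L)) [p.IsPrime] {h : ℕ}
    (hd : D ≤ dimNat (MvPowerSeries (Fin D) L ⧸ p) + h) :
    ∃ (z : Fin (dimNat (MvPowerSeries (Fin D) L ⧸ p)) → Fin D → L) (w : Fin h → Fin D → L)
      (r : ℕ), maximalIdeal (MvPowerSeries (Fin D) L) ^ r ≤
        p ⊔ Ideal.span (Set.range fun i => linForm L D (z i)) ∧
      Submodule.span L (Set.range z ∪ Set.range w) = ⊤ := by
  classical
  have : IsLocalRing (MvPowerSeries (Fin D) L ⧸ p) :=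
    IsLocalRing.of_surjective' (Ideal.Quotient.mk p) Ideal.Quotient.mk_surjective
  obtain ⟨z, r, hr⟩ := exists_forms _ p (coe_dimNat (MvPowerSeries (Fin D) L ⧸ p)).le
  obtain ⟨Q, hQ⟩ := Submodule.exists_isCompl (Submodule.span L (Set.range z))
  let b := Module.finBasis L Q
  have hQh : Module.finrank L Q ≤ h := by
    have h1 := Submodule.finrank_add_eq_of_isCompl hQ
    have h2 := dimNat_quotient_le_finrank p z hr
    rw [Module.finrank_fin_fun] at h1
    omega
  let w : Fin h → Fin D → L := fun i =>
    if hi : (i : ℕ) < Module.finrank L Q then (b ⟨i, hi⟩ : Fin D → L) else 0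
  refine ⟨z, w, r, hr, ?_⟩
  rw [Submodule.span_union, eq_top_iff, ← hQ.sup_eq_top]
  refine sup_le_sup le_rfl ?_
  have hb := congrArg (Submodule.map Q.subtype) b.span_eq
  rw [Submodule.map_top, Submodule.range_subtype, Submodule.map_span, ← Set.range_comp] at hb
  refine hb.ge.trans (Submodule.span_mono ?_)
  rintro _ ⟨j, rfl⟩
  refine ⟨Fin.castLE hQh j, ?_⟩
  simp [w]

end Forms

end Vale.Agent.P202
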