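import Vale.Agent.P202.Reduce.FlatInvariant
import Vale.Agent.P202.Reduce.Gonflement

/-!
# P202 Reduce: completions with their universal property, covers with algebraically closed residue
field, and freeness over the intermediate ring
-/

noncomputable section

namespace Vale.Agent.P202

open IsLocalRing

universe u

/-- The completion, with the extension of local maps to complete local rings. -/
theorem exists_completion_lift (R : Type u) [CommRing R] [IsNoetherianRing R] [IsLocalRing R]
    (p : ℕ) [Fact p.Prime] [CharP R p] :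
    ∃ (A : Type u) (_ : CommRing A) (_ : IsLocalRing A) (_ : IsNoetherianRing A)
      (_ : IsAdicComplete (maximalIdeal A) A) (_ : CharP A p) (f : R →+* A),
      IsLocalHom f ∧ f.Flat ∧ (maximalIdeal R).map f = maximalIdeal A ∧
      (∃ e : ResidueField R →+* ResidueField A, Function.Bijective e ∧
        e.comp (residue R) = (residue A).comp f) ∧
      ∀ (B : Type u) [CommRing B] [IsLocalRing B] [IsAdicComplete (maximalIdeal B) B]
        (g : R →+* B), (∀ a ∈ maximalIdeal R, g a ∈ maximalIdeal B) →
        ∃ ψ : A →+* B, ψ.comp f = g := by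
  set A := AdicCompletion (maximalIdeal R) R
  have hinj : Function.Injective (algebraMap R A) := by
    have : Module.FaithfullyFlat R A := Module.FaithfullyFlat.of_flat_of_isLocalHom
    exact FaithfulSMul.algebraMap_injective R A
  have : CharP A p := charP_of_injective_ringHom hinj p
  obtain ⟨σ, hσ⟩ := exists_coefficientField' A p
  obtain ⟨n, x, hx⟩ := Submodule.fg_iff_exists_fin_generating_family.1
    (IsNoetherian.noetherian (maximalIdeal R))
  have hmax : maximalIdeal A = Ideal.span (Set.range fun i => algebraMap R A (x i)) := by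
    refine AdicCompletion.maximalIdeal_eq_map.trans
      ((congrArg (Ideal.map (algebraMap R A)) hx).symm.trans ?_)
    show Ideal.map (algebraMap R A) (Ideal.span (Set.range x)) = _
    rw [Ideal.map_span, ← Set.range_comp]
    rfl
  obtain ⟨φ, hC, hX, -⟩ := exists_evalHom σ (fun i => algebraMap R A (x i))
    fun i => hmax ▸ Ideal.subset_span (Set.mem_range_self i)
  have hN : IsNoetherianRing A := isNoetherianRing_of_surjective _ _ φ
    (surjective_powerSeriesHom φ (fun a => ⟨residue A a, by
      rw [← residue_eq_zero_iff, map_sub, hC, hσ, sub_self]⟩) (by simpa only [hX] using hmax))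
  refine ⟨A, inferInstance, inferInstance, hN, inferInstance, ‹_›, algebraMap R A, inferInstance,
    RingHom.flat_algebraMap_iff.2 inferInstance, AdicCompletion.maximalIdeal_eq_map.symm,
    ⟨ResidueField.map (algebraMap R A), AdicCompletion.residueField_map_bijective R,
    RingHom.ext fun _ => rfl⟩, ?_⟩
  intro B _ _ _ g hg
  have hle : ∀ N, maximalIdeal R ^ N ≤ (maximalIdeal B ^ N).comap g := fun N =>
    Ideal.map_le_iff_le_comap.1 <| by
      rw [Ideal.map_pow]
      exact Ideal.pow_right_mono (Ideal.map_le_iff_le_comap.2 hg) N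
  let F : (N : ℕ) → A →+* B ⧸ maximalIdeal B ^ N := fun N =>
    (Ideal.quotientMap (maximalIdeal B ^ N) g (hle N)).comp
      (AdicCompletion.evalₐ (maximalIdeal R) N).toRingHom
  have hF : ∀ {i N : ℕ} (h : i ≤ N),
      (Ideal.Quotient.factorPow (maximalIdeal B) h).comp (F N) = F i := by
    intro i N h
    refine RingHom.ext fun y => ?_
    induction y using AdicCompletion.induction_on with
    | _ y =>
      simp only [F, RingHom.comp_apply, AlgHom.toRingHom_eq_coe, RingHom.coe_coe]
      rw [show AdicCompletion.evalₐ (maximalIdeal R) N (AdicCompletion.mk (maximalIdeal R) R y) =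
          Ideal.Quotient.mk (maximalIdeal R ^ N) (y.1 N) from AdicCompletion.evalₐ_mk _ _ _,
        show AdicCompletion.evalₐ (maximalIdeal R) i (AdicCompletion.mk (maximalIdeal R) R y) =
          Ideal.Quotient.mk (maximalIdeal R ^ i) (y.1 i) from AdicCompletion.evalₐ_mk _ _ _,
        Ideal.quotientMap_mk, Ideal.quotientMap_mk, factorPow_mk, Ideal.Quotient.eq, ← map_sub]
      refine hle i ?_
      have := SModEq.sub_mem.1 (y.2 h)
      rw [smul_eq_mul, Ideal.mul_top] at this
      exact neg_sub (y.1 i) (y.1 N) ▸ neg_mem this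
  refine ⟨IsAdicComplete.liftRingHom (maximalIdeal B) F hF, RingHom.ext fun a => ?_⟩
  refine sub_eq_zero.1 (IsHausdorff.haus' (I := maximalIdeal B) _ fun N => ?_)
  rw [SModEq.zero, smul_eq_mul, Ideal.mul_top, ← Ideal.Quotient.eq, RingHom.comp_apply,
    IsAdicComplete.mk_liftRingHom]
  simp only [F, RingHom.comp_apply, AlgHom.toRingHom_eq_coe, RingHom.coe_coe]
  rw [AlgHom.commutes, Ideal.Quotient.algebraMap_eq, Ideal.quotientMap_mk]

/-- A complete cover with algebraically closed residue field and the same maximal ideal. -/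
theorem exists_cover (S : Type u) [CommRing S] [IsNoetherianRing S] [IsLocalRing S] (p : ℕ)
    [Fact p.Prime] [CharP S p] :
    ∃ (B : Type u) (_ : CommRing B) (_ : IsLocalRing B) (_ : IsNoetherianRing B)
      (_ : IsAdicComplete (maximalIdeal B) B) (L : Type u) (_ : Field L) (_ : IsAlgClosed L)
      (τ : L →+* B) (f : S →+* B),
      IsLocalHom f ∧ f.Flat ∧ (maximalIdeal S).map f = maximalIdeal B ∧
      Function.Bijective ((residue B).comp τ) := by
  obtain ⟨A, iA, iAl, iAn, iAc, iAp, f, hfl, hff, hfm, -, -⟩ := exists_completion_lift S p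
  obtain ⟨σ, hσ⟩ := exists_coefficientField' A p
  have hσb : Function.Bijective ((residue A).comp σ) := by
    rw [show (residue A).comp σ = RingHom.id _ from RingHom.ext hσ]
    exact Function.bijective_id
  obtain ⟨B, iB, iBl, iBn, iBc, f', τ, hl', hf', hm', hτ, -, -⟩ :=
    exists_gonflement (L := AlgebraicClosure (ResidueField A)) σ hσb
  refine ⟨B, iB, iBl, iBn, iBc, AlgebraicClosure (ResidueField A), inferInstance, inferInstance,
    τ, f'.comp f, ?_, hff.comp hf', ?_, hτ⟩
  · exact RingHom.isLocalHom_comp f' f
  · rw [← Ideal.map_map, hfm, hm']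

/-- A minimal generating family has relations inside the maximal ideal. -/
theorem exists_minimal_generators (A B : Type*) [CommRing A] [IsLocalRing A] [AddCommGroup B]
    [Module A B] [Module.Finite A B] :
    ∃ (n : ℕ) (π : (Fin n → A) →ₗ[A] B), Function.Surjective π ∧
      ∀ x ∈ LinearMap.ker π, ∀ i, x i ∈ maximalIdeal A := by
  classical
  have hex : ∃ n, ∃ v : Fin n → B, Submodule.span A (Set.range v) = ⊤ := Module.Finite.exists_fin
  set n := Nat.find hex
  obtain ⟨v, hv⟩ := Nat.find_spec hex
  refine ⟨n, Fintype.linearCombination A v, ?_, ?_⟩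
  · rw [← LinearMap.range_eq_top, Fintype.range_linearCombination]
    exact hv
  · intro x hx i
    by_contra hxi
    obtain ⟨u, hu⟩ := IsLocalRing.notMem_maximalIdeal.1 hxi
    have hn : 0 < n := i.pos
    refine Nat.find_min hex (show n - 1 < n by omega) ?_
    let e' : { l : Fin n // l ≠ i } ≃ Fin (n - 1) := Fintype.equivFinOfCardEq (by simp)
    let e : Fin (n - 1) → Fin n := fun j => (e'.symm j : Fin n)
    refine ⟨fun j => v (e j), ?_⟩
    rw [eq_top_iff, ← hv, Submodule.span_le]
    have hothers : ∀ l, l ≠ i → v l ∈ Submodule.span A (Set.range fun j => v (e j)) := by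
      intro l hl
      exact Submodule.subset_span ⟨e' ⟨l, hl⟩, by simp [e]⟩
    rintro _ ⟨l, rfl⟩
    by_cases hl : l = i
    · subst hl
      have h0 : ∑ j, x j • v j = 0 := by
        rw [← Fintype.linearCombination_apply]
        exact hx
      rw [← Finset.add_sum_erase _ _ (Finset.mem_univ l), add_eq_zero_iff_eq_neg] at h0
      have h1 : v l = (↑u⁻¹ : A) • -∑ j ∈ Finset.univ.erase l, x j • v j := by
        rw [← h0, ← hu, smul_smul, Units.inv_mul, one_smul]
      rw [SetLike.mem_coe, h1]
      exact Submodule.smul_mem _ _ (neg_mem (Submodule.sum_mem _ fun j hj =>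
        Submodule.smul_mem _ _ (hothers j (Finset.ne_of_mem_erase hj))))
    · exact hothers l hl

/-- Over a flat algebra, relations with coefficients in the maximal ideal are relations times it. -/
theorem ker_le_smul_ker {R A B : Type*} [CommRing R] [IsNoetherianRing R] [IsLocalRing R]
    [CommRing A] [IsLocalRing A] [AddCommGroup B] [Module A B] [Module R B] [Algebra R A]
    [IsScalarTower R A B] [Module.Flat R B]
    (hm : (maximalIdeal R).map (algebraMap R A) = maximalIdeal A) {n : ℕ}
    (π : (Fin n → A) →ₗ[A] B) (hπ : Function.Surjective π)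
    (hcoord : ∀ x ∈ LinearMap.ker π, ∀ i, x i ∈ maximalIdeal A) :
    LinearMap.ker π ≤ maximalIdeal A • LinearMap.ker π := by
  set f := algebraMap R A
  obtain ⟨s, a, ha⟩ := Submodule.fg_iff_exists_fin_generating_family.1
    (IsNoetherian.noetherian (maximalIdeal R))
  have hmem : ∀ l, f (a l) ∈ maximalIdeal A := fun l => hm ▸ Ideal.mem_map_of_mem f
    (ha ▸ Submodule.subset_span (Set.mem_range_self l))
  have hspan : maximalIdeal A = Ideal.span (Set.range fun l => f (a l)) := by
    rw [← hm, ← ha]
    show Ideal.map f (Ideal.span (Set.range a)) = _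
    rw [Ideal.map_span, ← Set.range_comp]
    rfl
  intro x hx
  have hc : ∀ i, ∃ c : Fin s → A, ∑ l, c l * f (a l) = x i := fun i =>
    Ideal.mem_span_range_iff_exists_fun.1 (hspan ▸ hcoord x hx i)
  choose c hc using hc
  let w : Fin s → (Fin n → A) := fun l i => c i l
  have hxw : x = ∑ l, f (a l) • w l := by
    funext i
    rw [Finset.sum_apply, ← hc i]
    exact Finset.sum_congr rfl fun l _ => mul_comm _ _
  have hrel : ∑ l, a l • π (w l) = 0 := by
    rw [← (LinearMap.mem_ker.1 hx), hxw, map_sum]
    refine Finset.sum_congr rfl fun l _ => ?_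
    rw [map_smul]
    exact (algebraMap_smul A (a l) (π (w l))).symm
  obtain ⟨k, b, y, hy, hb⟩ := Module.Flat.isTrivialRelation_of_sum_smul_eq_zero hrel
  choose y' hy' using fun j => hπ (y j)
  let w' : Fin s → (Fin n → A) := fun l => w l - ∑ j, f (b l j) • y' j
  have hw' : ∀ l, w' l ∈ LinearMap.ker π := by
    intro l
    rw [LinearMap.mem_ker, map_sub, map_sum, show π (w l) = _ from hy l, sub_eq_zero]
    refine Finset.sum_congr rfl fun j _ => ?_
    rw [map_smul, hy']
    exact (algebraMap_smul A (b l j) (y j)).symm
  have hxw' : x = ∑ l, f (a l) • w' l := by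
    simp only [w', smul_sub, Finset.sum_sub_distrib, ← hxw]
    rw [eq_comm, sub_eq_self]
    simp only [Finset.smul_sum, smul_smul]
    rw [Finset.sum_comm]
    refine Finset.sum_eq_zero fun j _ => ?_
    rw [← Finset.sum_smul]
    simp only [← map_mul, ← map_sum, hb j, map_zero, zero_smul]
  rw [hxw']
  exact Submodule.sum_mem _ fun l _ => Submodule.smul_mem_smul (hmem l) (hw' l)

/-- A finite local algebra which is flat over a base generating the maximal ideal of the
intermediate ring is free over the intermediate ring. -/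
theorem flat_of_finite_of_flat {R A B : Type*} [CommRing R] [IsNoetherianRing R] [IsLocalRing R]
    [CommRing A] [IsNoetherianRing A] [IsLocalRing A] [CommRing B]
    (f : R →+* A) (hm : (maximalIdeal R).map f = maximalIdeal A) (Φ : A →+* B) (hfin : Φ.Finite)
    (hflat : (Φ.comp f).Flat) : Φ.Flat := by
  algebraize [f, Φ, Φ.comp f]
  have : Module.Finite A B := hfin
  have : Module.Flat R B := hflat
  obtain ⟨n, π, hπ, hcoord⟩ := exists_minimal_generators A B
  have hbot : LinearMap.ker π = ⊥ := Submodule.eq_bot_of_le_smul_of_le_jacobson_bot _ _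
    (IsNoetherian.noetherian _) (ker_le_smul_ker (R := R) hm π hπ hcoord)
    (IsLocalRing.maximalIdeal_le_jacobson ⊥)
  show Module.Flat A B
  exact Module.Flat.of_linearEquiv
    (LinearEquiv.ofBijective π ⟨LinearMap.ker_eq_bot.1 hbot, hπ⟩).symm

end Vale.Agent.P202
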