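import Vale.Agent.P202.Reduce.CutForms
import Vale.Agent.P202.RingSide.Hilbert

/-!
# P202 Reduce: Hilbert functions of the localisations of a power series ring

For a prime `p` of `V = L[[X₁, ..., X_D]]` with `D ≤ dim V/p + h`, the length of `V_p/p^N` is at
most the number of monomials of degree `< N` in `h` variables: `V_p/p^N` is a quotient of the
localisation of `Frac(L[[Z]])[T₁, ..., T_h]` at a prime, a regular local ring.
-/

noncomputable section

namespace Vale.Agent.P202

open IsLocalRing

universe u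

theorem isAdicComplete_mvPowerSeries (n : ℕ) (L : Type u) [Field L] :
    IsAdicComplete (maximalIdeal (MvPowerSeries (Fin n) L)) (MvPowerSeries (Fin n) L) := by
  rw [maximalIdeal_mvPowerSeries]; infer_instance

/-- A quotient of a complete Noetherian local ring is complete. -/
theorem isAdicComplete_quotient {A : Type*} [CommRing A] [IsNoetherianRing A] [IsLocalRing A]
    [IsAdicComplete (maximalIdeal A) A] (I : Ideal A) [IsLocalRing (A ⧸ I)] :
    IsAdicComplete (maximalIdeal (A ⧸ I)) (A ⧸ I) := by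
  let B := A ⧸ I
  have h : IsAdicComplete (maximalIdeal A) B := isAdicComplete_of_finite (R := A) (A ⧸ I)
  have e : (maximalIdeal A).map (algebraMap A B) = maximalIdeal B :=
    IsLocalRing.map_maximalIdeal_of_surjective _ Ideal.Quotient.mk_surjective
  rw [← e]
  exact (IsAdicComplete.map_algebraMap_iff (I := maximalIdeal A) (S := B) (M := B)).2 h

theorem sup_pow_le_pow_sup {A : Type*} [CommRing A] (p Z : Ideal A) (n : ℕ) :
    (p ⊔ Z) ^ n ≤ p ^ n ⊔ Z := by
  induction n with
  | zero => simp
  | succ n ih =>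
    rw [pow_succ]
    refine (mul_le_mul' ih le_rfl).trans ?_
    rw [Ideal.mul_le]
    intro x hx y hy
    obtain ⟨x₁, hx₁, x₂, hx₂, rfl⟩ := Submodule.mem_sup.1 hx
    obtain ⟨y₁, hy₁, y₂, hy₂, rfl⟩ := Submodule.mem_sup.1 hy
    rw [show (x₁ + x₂) * (y₁ + y₂) = x₁ * y₁ + (x₁ * y₂ + x₂ * (y₁ + y₂)) by ring]
    exact Submodule.add_mem_sup (by rw [pow_succ]; exact Ideal.mul_mem_mul hx₁ hy₁)
      (Z.add_mem (Z.mul_mem_left _ hy₂) (Z.mul_mem_right _ hx₂))

/-- A regular local ring of dimension at most `h` has maximal ideal generated by `h` elements. -/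
theorem exists_generators_of_isRegularLocalRing (B : Type*) [CommRing B] [IsRegularLocalRing B]
    {h : ℕ} (hB : ringKrullDim B ≤ (h : WithBot ℕ∞)) :
    ∃ x : Fin h → B, Ideal.span (Set.range x) = maximalIdeal B := by
  classical
  have hk : (maximalIdeal B).spanFinrank ≤ h := by
    rw [← IsRegularLocalRing.spanFinrank_maximalIdeal] at hB
    exact_mod_cast hB
  have hfg : (maximalIdeal B).FG := IsNoetherian.noetherian _
  obtain ⟨s, hscard, hsfin, hs⟩ : ∃ s : Set B, s.ncard ≤ h ∧ s.Finite ∧
      Ideal.span s = maximalIdeal B :=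
    ⟨Submodule.generators (maximalIdeal B), (Submodule.FG.generators_ncard hfg).trans_le hk,
      Submodule.FG.finite_generators hfg, Submodule.span_generators _⟩
  let e := hsfin.toFinset.equivFin.symm
  have hc : hsfin.toFinset.card ≤ h := by rwa [← Set.ncard_eq_toFinset_card s hsfin]
  refine ⟨fun i => if hi : (i : ℕ) < hsfin.toFinset.card then (e ⟨i, hi⟩ : B) else 0, ?_⟩
  refine le_antisymm (Ideal.span_le.2 ?_) ?_
  · rintro _ ⟨i, rfl⟩
    simp only
    split_ifs with hi
    · rw [← hs]
      exact Ideal.subset_span (hsfin.mem_toFinset.1 (e ⟨i, hi⟩).2)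
    · exact zero_mem _
  · rw [← hs, Ideal.span_le]
    intro a ha
    refine Ideal.subset_span ⟨Fin.castLE hc (e.symm ⟨a, hsfin.mem_toFinset.2 ha⟩), ?_⟩
    simp

theorem length_quotient_maximalIdeal (B : Type*) [CommRing B] [IsLocalRing B] :
    Module.length B (B ⧸ maximalIdeal B) = 1 := by
  have : IsSimpleModule B (B ⧸ maximalIdeal B) :=
    isSimpleModule_iff_isCoatom.2 (maximalIdeal.isMaximal B).out
  exact Module.length_eq_one _ _

/-- The length of a quotient of the localisation of a regular ring of dimension at most `h`. -/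
theorem length_le_monCount_of_surjective {P Vp : Type*} [CommRing P] [IsRegularRing P]
    [CommRing Vp] [IsLocalRing Vp] {h : ℕ} (hdimP : ringKrullDim P ≤ (h : WithBot ℕ∞))
    (Ψ : P →+* Vp) (q : Ideal P) [q.IsPrime] (hq : q = (maximalIdeal Vp).comap Ψ)
    (Φ : Localization.AtPrime q →+* Vp)
    (hΦ : ∀ g, Φ (algebraMap P (Localization.AtPrime q) g) = Ψ g) (N : ℕ)
    (hsurj : Function.Surjective ((Ideal.Quotient.mk (maximalIdeal Vp ^ N)).comp Φ)) :
    Module.length Vp (Vp ⧸ maximalIdeal Vp ^ N) ≤ (monCount h N : ℕ∞) := by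
  let B := Localization.AtPrime q
  have hdimB : ringKrullDim B ≤ (h : WithBot ℕ∞) := by
    rw [IsLocalization.AtPrime.ringKrullDim_eq_height q B]
    exact Ideal.height_le_ringKrullDim_of_isPrime.trans hdimP
  have hΦmax : (maximalIdeal B).map Φ ≤ maximalIdeal Vp := by
    rw [← Localization.AtPrime.map_eq_maximalIdeal, Ideal.map_map, Ideal.map_le_iff_le_comap]
    intro g hg
    rw [Ideal.mem_comap, RingHom.comp_apply, hΦ]
    rw [hq] at hg
    exact hg
  let T := Vp ⧸ maximalIdeal Vp ^ N
  let π : Vp →+* T := Ideal.Quotient.mk _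
  let : Algebra B T := @RingHom.toAlgebra B T inferInstance inferInstance (π.comp Φ)
  have e1 : Module.length Vp T = Module.length T T :=
    Module.length_eq_of_surjective Ideal.Quotient.mk_surjective
  have e2 : Module.length B T = Module.length T T := Module.length_eq_of_surjective hsurj
  have hkill' : ∀ b ∈ maximalIdeal B ^ N, (π.comp Φ) b = 0 := fun b hb => by
    rw [RingHom.comp_apply, Ideal.Quotient.eq_zero_iff_mem]
    exact Ideal.pow_right_mono hΦmax N (Ideal.map_pow Φ _ N ▸ Ideal.mem_map_of_mem Φ hb)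
  let lin : (B ⧸ maximalIdeal B ^ N) →ₗ[B] T :=
    Submodule.liftQ _ (Algebra.linearMap B T) fun b hb => hkill' b hb
  have hlinsurj : Function.Surjective lin := fun t => by
    obtain ⟨b, hb⟩ := hsurj t
    exact ⟨Submodule.Quotient.mk b, hb⟩
  obtain ⟨x, hx⟩ := exists_generators_of_isRegularLocalRing B hdimB
  calc Module.length Vp T = Module.length B T := e1.trans e2.symm
    _ ≤ Module.length B (B ⧸ maximalIdeal B ^ N) := Module.length_le_of_surjective lin hlinsurj
    _ ≤ (monCount h N : ℕ∞) * Module.length B (B ⧸ Ideal.span (Set.range x)) :=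
        hx ▸ length_quotient_span_pow_le x N
    _ = _ := by rw [hx, length_quotient_maximalIdeal, mul_one]

section

variable {L : Type u} [Field L] {D k : ℕ}
  (φ : MvPowerSeries (Fin k) L →+* MvPowerSeries (Fin D) L) (z : Fin k → Fin D → L)

/-- Quotients of `V` primary modulo the forms `z` are finite over the power series in `z`. -/
theorem finite_quotient_comp (hφC : ∀ c, φ (MvPowerSeries.C c) = MvPowerSeries.C c)
    (hφX : ∀ i, φ (MvPowerSeries.X i) = linForm L D (z i))
    (I : Ideal (MvPowerSeries (Fin D) L)) (hI : I ≠ ⊤) (s : ℕ)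
    (hs : maximalIdeal (MvPowerSeries (Fin D) L) ^ s ≤
      I ⊔ Ideal.span (Set.range fun i => linForm L D (z i))) :
    ((Ideal.Quotient.mk I).comp φ).Finite := by
  have := isAdicComplete_mvPowerSeries D L
  set V := MvPowerSeries (Fin D) L
  have : Nontrivial (V ⧸ I) := Ideal.Quotient.nontrivial_iff.2 hI
  have : IsLocalRing (V ⧸ I) :=
    IsLocalRing.of_surjective' (Ideal.Quotient.mk I) Ideal.Quotient.mk_surjective
  have hmax : (maximalIdeal V).map (Ideal.Quotient.mk I) = maximalIdeal (V ⧸ I) :=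
    IsLocalRing.map_maximalIdeal_of_surjective _ Ideal.Quotient.mk_surjective
  have := isAdicComplete_quotient I
  refine finite_of_powerSeriesHom _ (fun a => ?_) (fun i => ?_) (r := s) ?_
  · obtain ⟨F, rfl⟩ := Ideal.Quotient.mk_surjective a
    refine ⟨MvPowerSeries.constantCoeff F, ?_⟩
    rw [RingHom.comp_apply, hφC, ← map_sub, ← hmax]
    refine Ideal.mem_map_of_mem _ ?_
    rw [maximalIdeal_mvPowerSeries]
    exact sub_C_constantCoeff_mem_span_X F
  · rw [RingHom.comp_apply, hφX, ← hmax]
    exact Ideal.mem_map_of_mem _ (linForm_mem _)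
  · rw [← hmax, ← Ideal.map_pow]
    refine (Ideal.map_mono hs).trans ?_
    rw [Ideal.map_sup, Ideal.map_quotient_self, bot_sup_eq, Ideal.map_span, ← Set.range_comp]
    simp only [Function.comp_def, RingHom.comp_apply, hφX, le_refl]

/-- Power series in as many forms as the dimension of `V/p` embed into `V/p`. -/
theorem notMem_of_ne_zero (p : Ideal (MvPowerSeries (Fin D) L)) [p.IsPrime]
    (hk : k = dimNat (MvPowerSeries (Fin D) L ⧸ p))
    (hψfin : ((Ideal.Quotient.mk p).comp φ).Finite)
    {F : MvPowerSeries (Fin k) L} (hF : F ≠ 0) : φ F ∉ p := by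
  set V := MvPowerSeries (Fin D) L
  have hloc : IsLocalRing (V ⧸ p) :=
    IsLocalRing.of_surjective' (Ideal.Quotient.mk p) Ideal.Quotient.mk_surjective
  let W := MvPowerSeries (Fin k) L
  let ψ : W →+* V ⧸ p := (Ideal.Quotient.mk p).comp φ
  intro hFp
  have hker : ∀ G ∈ Ideal.span {F}, ψ G = 0 := by
    intro G hG
    obtain ⟨G', rfl⟩ := Ideal.mem_span_singleton'.1 hG
    rw [map_mul, show ψ F = 0 from Ideal.Quotient.eq_zero_iff_mem.2 hFp, mul_zero]
  let g : W ⧸ Ideal.span {F} →+* V ⧸ p := Ideal.Quotient.lift _ ψ hker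
  have hg : g.Finite :=
    RingHom.Finite.of_comp_finite (f := Ideal.Quotient.mk (Ideal.span {F})) (by exact hψfin)
  have h1 := ringKrullDim_le_of_isIntegral g hg.to_isIntegral
  have : IsDomain W := NoZeroDivisors.to_isDomain _
  have h2 := ringKrullDim_quotient_succ_le_of_forall_notMem (r := F) (fun q hq hFq => hF (by
    rw [IsDomain.minimalPrimes_eq_singleton_bot, Set.mem_singleton_iff] at hq
    simpa [hq] using hFq))
  have h3 : ringKrullDim W ≤ (k : WithBot ℕ∞) := by
    refine (ringKrullDim_le_spanFinrank_maximalIdeal W).trans (Nat.cast_le.2 ?_)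
    rw [maximalIdeal_mvPowerSeries]
    refine (Submodule.spanFinrank_span_le_ncard_of_finite (Set.finite_range _)).trans ?_
    rw [← Set.image_univ]
    exact (Set.ncard_image_le Set.finite_univ).trans (by simp)
  have h4 : ((k : ℕ) : WithBot ℕ∞) ≤ ringKrullDim (W ⧸ Ideal.span {F}) :=
    (le_of_eq (by rw [hk])).trans ((coe_dimNat (V ⧸ p)).ge.trans h1)
  have h5 : ((k + 1 : ℕ) : WithBot ℕ∞) ≤ (k : WithBot ℕ∞) := by
    rw [Nat.cast_add, Nat.cast_one]
    exact ((add_le_add_left h4 1).trans h2).trans h3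
  have : k + 1 ≤ k := by exact_mod_cast h5
  omega

/-- A subring of a quotient of `V` containing the power series in `z` and the forms `w` is
everything. -/
theorem forall_mem_subring (hφC : ∀ c, φ (MvPowerSeries.C c) = MvPowerSeries.C c)
    (hφX : ∀ i, φ (MvPowerSeries.X i) = linForm L D (z i))
    {h : ℕ} (w : Fin h → Fin D → L) (hspan : Submodule.span L (Set.range z ∪ Set.range w) = ⊤)
    (I : Ideal (MvPowerSeries (Fin D) L)) (hI : I ≠ ⊤) (s : ℕ)
    (hs : maximalIdeal (MvPowerSeries (Fin D) L) ^ s ≤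
      I ⊔ Ideal.span (Set.range fun i => linForm L D (z i)))
    (S₀ : Subring (MvPowerSeries (Fin D) L ⧸ I))
    (hω : ∀ F, Ideal.Quotient.mk I (φ F) ∈ S₀)
    (hw : ∀ i, Ideal.Quotient.mk I (linForm L D (w i)) ∈ S₀) : ∀ u, u ∈ S₀ := by
  set V := MvPowerSeries (Fin D) L
  let W := MvPowerSeries (Fin k) L
  let U := V ⧸ I
  let ω : W →+* U := (Ideal.Quotient.mk I).comp φ
  have hωfin : ω.Finite := finite_quotient_comp φ z hφC hφX I hI s hs
  have hlin : ∀ v, Ideal.Quotient.mk (I) (linForm L D v) ∈ S₀ := by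
    intro v
    refine Submodule.span_induction ?_ ?_ ?_ ?_ (show v ∈ Submodule.span L
      (Set.range z ∪ Set.range w) by rw [hspan]; exact Submodule.mem_top)
    · rintro _ (⟨i, rfl⟩ | ⟨i, rfl⟩)
      · have h1 := hω (MvPowerSeries.X i)
        rwa [hφX] at h1
      · exact hw i
    · simp
    · intro x y _ _ hx hy
      rw [map_add, map_add]
      exact add_mem hx hy
    · intro a x _ hx
      rw [map_smul, MvPowerSeries.smul_eq_C_mul, map_mul]
      refine mul_mem ?_ hx
      have h1 := hω (MvPowerSeries.C a)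
      rwa [hφC] at h1
  have hpoly : ∀ Q : MvPolynomial (Fin D) L,
      Ideal.Quotient.mk (I) (Q : V) ∈ S₀ := by
    intro Q
    induction Q using MvPolynomial.induction_on with
    | C a =>
      have h1 := hω (MvPowerSeries.C a)
      rw [hφC] at h1
      rwa [MvPolynomial.coe_C]
    | add f g hf hg =>
      rw [MvPolynomial.coe_add, map_add]
      exact add_mem hf hg
    | mul_X f l hf =>
      rw [MvPolynomial.coe_mul, MvPolynomial.coe_X, map_mul, ← linForm_single]
      exact mul_mem hf (hlin _)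
  let := ω.toAlgebra
  have : Module.Finite W U := hωfin
  let M : Submodule W U :=
    { carrier := S₀
      add_mem' := fun ha hb => add_mem ha hb
      zero_mem' := zero_mem _
      smul_mem' := fun F u hu => by
        rw [Algebra.smul_def]
        exact mul_mem (hω F) hu }
  have htop : (⊤ : Submodule W U) ≤ M ⊔ maximalIdeal W • ⊤ := by
    rintro u -
    obtain ⟨F, rfl⟩ := Ideal.Quotient.mk_surjective u
    have h1 : F - (MvPowerSeries.truncTotal (s) F : V) ∈
        I ⊔ Ideal.span (Set.range fun i => linForm L D (z i)) := by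
      refine hs ?_
      rw [maximalIdeal_mvPowerSeries]
      exact mem_span_X_pow fun t ht => by
        simp [MvPowerSeries.coeff_truncTotal _ ht]
    refine Submodule.mem_sup.2 ⟨_, hpoly (MvPowerSeries.truncTotal (s) F),
      Ideal.Quotient.mk (I) (F - (MvPowerSeries.truncTotal (s) F : V)), ?_, by simp⟩
    rw [Ideal.smul_top_eq_map, Submodule.restrictScalars_mem, maximalIdeal_mvPowerSeries,
      Ideal.map_span, ← Set.range_comp]
    have h2 := Ideal.mem_map_of_mem (Ideal.Quotient.mk (I)) h1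
    rw [Ideal.map_sup, Ideal.map_quotient_self, bot_sup_eq, Ideal.map_span,
      ← Set.range_comp] at h2
    simpa only [Function.comp_def, RingHom.algebraMap_toAlgebra, ω, RingHom.comp_apply,
      hφX] using h2
  have hM : ∀ u, u ∈ S₀ := fun u =>
    Submodule.le_of_le_smul_of_le_jacobson_bot Module.Finite.fg_top
      (IsLocalRing.maximalIdeal_le_jacobson ⊥) htop (Submodule.mem_top (x := u))
  exact hM

end

/-- Surjectivity modulo powers from a localised parametrisation. -/
theorem surjective_mk_localization {V P Vp : Type*} [CommRing V] [CommRing P] [CommRing Vp]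
    [IsLocalRing Vp] [Algebra V Vp] (M : Submonoid V) [IsLocalization M Vp] (Ψ : P →+* Vp)
    (q : Ideal P) [q.IsPrime] (hq : q = (maximalIdeal Vp).comap Ψ)
    (Φ : Localization.AtPrime q →+* Vp)
    (hΦ : ∀ g, Φ (algebraMap P (Localization.AtPrime q) g) = Ψ g) {N : ℕ} (hN : 0 < N)
    (hM : ∀ v, ∃ g, Ideal.Quotient.mk (maximalIdeal Vp ^ N) (Ψ g) =
      Ideal.Quotient.mk (maximalIdeal Vp ^ N) (algebraMap V Vp v)) :
    Function.Surjective ((Ideal.Quotient.mk (maximalIdeal Vp ^ N)).comp Φ) := by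
  let π : Vp →+* Vp ⧸ maximalIdeal Vp ^ N := Ideal.Quotient.mk _
  let j : V →+* Vp := algebraMap V Vp
  let B := Localization.AtPrime q
  intro t
  obtain ⟨x, rfl⟩ := Ideal.Quotient.mk_surjective t
  obtain ⟨v, s, rfl⟩ := IsLocalization.exists_mk'_eq M x
  obtain ⟨Pv, hPv⟩ := hM v
  obtain ⟨Ps, hPs⟩ := hM (s : V)
  have hu : IsUnit (π (j s)) := (IsLocalization.map_units Vp s).map π
  have hPsq : Ps ∉ q := by
    intro hmem
    rw [hq] at hmem
    have h1 : Ψ Ps - j s ∈ maximalIdeal Vp :=
      Ideal.pow_le_self (by omega) (Ideal.Quotient.eq.1 hPs)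
    have h2 : j s ∈ maximalIdeal Vp := by
      have := Ideal.sub_mem _ (show Ψ Ps ∈ maximalIdeal Vp from hmem) h1
      rwa [sub_sub_cancel] at this
    exact (mem_maximalIdeal _).1 h2 (IsLocalization.map_units Vp s)
  refine ⟨IsLocalization.mk' B Pv (⟨Ps, hPsq⟩ : q.primeCompl), hu.mul_left_injective ?_⟩
  calc (π.comp Φ) (IsLocalization.mk' B Pv (⟨Ps, hPsq⟩ : q.primeCompl)) * π (j s)
      = π (Φ (IsLocalization.mk' B Pv (⟨Ps, hPsq⟩ : q.primeCompl)) *
          Φ (algebraMap _ B Ps)) := by rw [hΦ, RingHom.comp_apply, map_mul, hPs]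
    _ = π (Ψ Pv) := by
        rw [← map_mul, show (algebraMap _ B Ps) = algebraMap _ B
          ((⟨Ps, hPsq⟩ : q.primeCompl) : P) from rfl, IsLocalization.mk'_spec, hΦ]
    _ = π (IsLocalization.mk' Vp v s) * π (j s) := by
        rw [hPv, ← map_mul, IsLocalization.mk'_spec]

section

variable {L : Type u} [Field L] [Infinite L] {D : ℕ}

theorem length_atPrime_pow_le (p : Ideal (MvPowerSeries (Fin D) L)) [p.IsPrime] {h : ℕ}
    (hd : D ≤ dimNat (MvPowerSeries (Fin D) L ⧸ p) + h) (N : ℕ) :
    Module.length (Localization.AtPrime p)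
      (Localization.AtPrime p ⧸ maximalIdeal (Localization.AtPrime p) ^ N) ≤
        (monCount h N : ℕ∞) := by
  classical
  set V := MvPowerSeries (Fin D) L
  obtain ⟨k, hk, z, w, r, hr, hspan⟩ : ∃ k, k = dimNat (V ⧸ p) ∧
      ∃ (z : Fin k → Fin D → L) (w : Fin h → Fin D → L) (r : ℕ), maximalIdeal V ^ r ≤
        p ⊔ Ideal.span (Set.range fun i => linForm L D (z i)) ∧
      Submodule.span L (Set.range z ∪ Set.range w) = ⊤ := ⟨_, rfl, exists_normalForms p hd⟩
  let W := MvPowerSeries (Fin k) L
  have : IsDomain W := NoZeroDivisors.to_isDomain _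
  have := isAdicComplete_mvPowerSeries D L
  obtain ⟨φ, hφC, hφX, -⟩ := exists_evalHom (MvPowerSeries.C : L →+* V)
    (fun i => linForm L D (z i)) (fun i => linForm_mem _)
  have hfin := finite_quotient_comp φ z hφC hφX
  have hψfin := hfin p (Ideal.IsPrime.ne_top inferInstance) r hr
  have hinj : ∀ F : W, F ≠ 0 → φ F ∉ p := fun F hF => notMem_of_ne_zero φ p hk hψfin hF
  let Vp := Localization.AtPrime p
  let j : V →+* Vp := algebraMap V Vp
  have hunit : ∀ F : nonZeroDivisors W, IsUnit ((j.comp φ) F) := fun F =>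
    IsLocalization.map_units Vp (⟨φ F, hinj F (nonZeroDivisors.coe_ne_zero F)⟩ : p.primeCompl)
  let θ : FractionRing W →+* Vp := IsLocalization.lift hunit
  have hθ : ∀ F, θ (algebraMap W (FractionRing W) F) = j (φ F) := fun F =>
    IsLocalization.lift_eq hunit F
  let Ψ : MvPolynomial (Fin h) (FractionRing W) →+* Vp :=
    MvPolynomial.eval₂Hom θ (fun i => j (linForm L D (w i)))
  let q : Ideal (MvPolynomial (Fin h) (FractionRing W)) := (maximalIdeal Vp).comap Ψ
  have hqp : q.IsPrime := Ideal.comap_isPrime _ _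
  let B := Localization.AtPrime q
  have hunit' : ∀ g : q.primeCompl, IsUnit (Ψ g) := fun g =>
    IsLocalRing.notMem_maximalIdeal.1 g.2
  let Φ : B →+* Vp := IsLocalization.lift hunit'
  have hΦ : ∀ g, Φ (algebraMap _ B g) = Ψ g := fun g => IsLocalization.lift_eq hunit' g
  let T := Vp ⧸ maximalIdeal Vp ^ N
  let π : Vp →+* T := Ideal.Quotient.mk _
  have hsurj : Function.Surjective (π.comp Φ) := by
    rcases Nat.eq_zero_or_pos N with hN | hN
    · intro t
      have : Subsingleton T := by
        rw [Ideal.Quotient.subsingleton_iff, hN, pow_zero, Ideal.one_eq_top]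
      exact ⟨0, Subsingleton.elim _ _⟩
    have hpN : p ^ N ≠ ⊤ := fun htop => Ideal.IsPrime.ne_top (I := p) inferInstance
      (top_le_iff.1 (htop ▸ Ideal.pow_le_self (by omega)))
    let U := V ⧸ p ^ N
    let ω : W →+* U := (Ideal.Quotient.mk (p ^ N)).comp φ
    have hrN : maximalIdeal V ^ (r * N) ≤
        p ^ N ⊔ Ideal.span (Set.range fun i => linForm L D (z i)) := by
      rw [pow_mul]
      exact (Ideal.pow_right_mono hr N).trans (sup_pow_le_pow_sup _ _ _)
    have hkill : ∀ v ∈ p ^ N, (π.comp j) v = 0 := by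
      intro v hv
      rw [RingHom.comp_apply, Ideal.Quotient.eq_zero_iff_mem]
      have := Ideal.mem_map_of_mem j hv
      rwa [Ideal.map_pow, Localization.AtPrime.map_eq_maximalIdeal] at this
    let gU : U →+* T := Ideal.Quotient.lift _ (π.comp j) hkill
    let S₀ : Subring U := ((π.comp Ψ).range).comap gU
    have hgU : ∀ v, gU (Ideal.Quotient.mk _ v) = π (j v) := fun v => rfl
    have hω : ∀ F, ω F ∈ S₀ := fun F => by
      refine ⟨MvPolynomial.C (algebraMap W (FractionRing W) F), ?_⟩
      simp [ω, hgU, Ψ, hθ]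
    have hM := forall_mem_subring φ z hφC hφX w hspan (p ^ N) hpN (r * N) hrN S₀ hω
      (fun i => ⟨MvPolynomial.X i, by simp [hgU, Ψ]⟩)
    exact surjective_mk_localization p.primeCompl Ψ q rfl Φ hΦ hN
      fun v => hM (Ideal.Quotient.mk (p ^ N) v)
  have hdimP : ringKrullDim (MvPolynomial (Fin h) (FractionRing W)) ≤ (h : WithBot ℕ∞) := by
    rw [MvPolynomial.ringKrullDim_of_isNoetherianRing, ringKrullDim_eq_zero_of_field]
    simp
  exact length_le_monCount_of_surjective hdimP Ψ q rfl Φ hΦ N hsurj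

end

end Vale.Agent.P202
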