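import Vale.Agent.P202.RingSide.Complete

/-!
# P202 Reduce: coefficient fields of complete local rings of characteristic `p`

No assumption is made on the residue field. The lifts are built from a maximal set of elements
none of which is generated by the others over the `p`-th powers.
-/

noncomputable section

namespace Vale.Agent.P202

open IsLocalRing Polynomial

section Field

variable {k : Type*} [Field k] (p : ℕ) [Fact p.Prime] [CharP k p]

/-- The subfield generated by the `p`-th powers and by `S`. -/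
def pClosure (S : Set k) : Subfield k :=
  Subfield.closure (Set.range (frobenius k p) ∪ S)

/-- No element of `B` is generated by the others over the `p`-th powers. -/
def PFree (B : Set k) : Prop := ∀ b ∈ B, b ∉ pClosure p (B \ {b})

variable {p}

theorem pow_mem_pClosure (S : Set k) (x : k) : x ^ p ∈ pClosure p S :=
  Subfield.subset_closure (Or.inl ⟨x, rfl⟩)

theorem mem_pClosure_of_mem {S : Set k} {x : k} (h : x ∈ S) : x ∈ pClosure p S :=
  Subfield.subset_closure (Or.inr h)

theorem pClosure_mono {S T : Set k} (h : S ⊆ T) : pClosure p S ≤ pClosure p T :=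
  Subfield.closure_mono (Set.union_subset_union_right _ h)

/-- A subring containing all `p`-th powers is closed under inverses. -/
theorem inv_mem_of_pow_mem (F : Subring k) (hF : ∀ x : k, x ^ p ∈ F) {x : k} (hx : x ∈ F) :
    x⁻¹ ∈ F := by
  rcases eq_or_ne x 0 with rfl | h
  · simp
  have e : x⁻¹ = x ^ (p - 1) * x⁻¹ ^ p := by
    obtain ⟨r, hr⟩ : ∃ r, p = r + 1 := ⟨p - 1, by have := (Fact.out : p.Prime).pos; omega⟩
    rw [hr, Nat.add_sub_cancel, pow_succ, ← mul_assoc, ← mul_pow, mul_inv_cancel₀ h, one_pow,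
      one_mul]
  rw [e]
  exact F.mul_mem (F.pow_mem hx _) (hF _)

/-- A subring containing the `p`-th powers, as a subfield. -/
def subfieldOfPowMem (F : Subring k) (hF : ∀ x : k, x ^ p ∈ F) : Subfield k :=
  { F with inv_mem' := fun _ hx => inv_mem_of_pow_mem F hF hx }

theorem mem_pClosure_iff {S : Set k} {x : k} :
    x ∈ pClosure p S ↔ x ∈ Subring.closure (Set.range (frobenius k p) ∪ S) := by
  refine ⟨fun hx => ?_, fun hx => ?_⟩
  · have h : pClosure p S ≤ subfieldOfPowMem (Subring.closure (Set.range (frobenius k p) ∪ S))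
        fun y => Subring.subset_closure (Or.inl ⟨y, rfl⟩) :=
      Subfield.closure_le.2 fun y hy => Subring.subset_closure hy
    exact h hx
  · exact (Subring.closure_le (t := (pClosure p S).toSubring)).2 Subfield.subset_closure hx

/-- A polynomial of degree less than `p` over a subfield containing `b ^ p` but not `b` cannot
vanish at `b`. -/
theorem eq_zero_of_eval₂_eq_zero (F : Subfield k) {b : k} (hb : b ∉ F) (hbp : b ^ p ∈ F)
    (P : F[X]) (hdeg : P.degree < (p : ℕ)) (h : P.eval₂ F.subtype b = 0) : P = 0 := by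
  have hirr : Irreducible (X ^ p - C (⟨b ^ p, hbp⟩ : F)) := by
    refine X_pow_sub_C_irreducible_of_prime (Fact.out : p.Prime) fun c hc => hb ?_
    have h' : (c : k) ^ p = b ^ p := by simpa using congrArg Subtype.val hc
    exact frobenius_inj k p (by simpa [frobenius_def] using h') ▸ c.2
  by_contra hP
  have hmin := minpoly.eq_of_irreducible_of_monic hirr (x := b)
    (by simp [Polynomial.aeval_def, Subfield.coe_subtype, show algebraMap F k = F.subtype from rfl])
    (monic_X_pow_sub_C _ (Fact.out : p.Prime).ne_zero)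
  have hle := minpoly.degree_le_of_ne_zero F b hP
    (by rw [Polynomial.aeval_def]; exact h)
  rw [← hmin, degree_X_pow_sub_C (Fact.out : p.Prime).pos] at hle
  exact absurd hle (not_le.2 hdeg)

/-- The exchange step, for abstract subfields. -/
theorem false_of_eval₂_eq (F F' : Subfield k) (hle : F ≤ F') (hpF : ∀ x : k, x ^ p ∈ F) {a b : k}
    (hbF : b ∉ F) (hbF' : b ∈ F') (haF' : a ∉ F') (P : F[X]) (hP : P.eval₂ F.subtype a = b) :
    False := by
  have hg : (X ^ p - C (⟨a ^ p, hpF a⟩ : F)).Monic :=
    monic_X_pow_sub_C _ (Fact.out : p.Prime).ne_zero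
  have hR : (P %ₘ (X ^ p - C (⟨a ^ p, hpF a⟩ : F))).eval₂ F.subtype a = b := by
    rw [← hP]
    conv_rhs => rw [← modByMonic_add_div P (X ^ p - C (⟨a ^ p, hpF a⟩ : F))]
    simp
  have hRdeg : (P %ₘ (X ^ p - C (⟨a ^ p, hpF a⟩ : F))).degree < (p : ℕ) := by
    rw [← degree_X_pow_sub_C (Fact.out : p.Prime).pos (⟨a ^ p, hpF a⟩ : F)]
    exact degree_modByMonic_lt P hg
  generalize P %ₘ (X ^ p - C (⟨a ^ p, hpF a⟩ : F)) = R at hR hRdeg
  have hconst : R.natDegree ≠ 0 := fun hc => by
    rw [eq_C_of_natDegree_eq_zero hc, eval₂_C, Subfield.coe_subtype] at hR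
    exact hbF (hR ▸ (R.coeff 0).2)
  have hι : F'.subtype.comp (Subfield.inclusion hle) = F.subtype := RingHom.ext fun _ => rfl
  have hQ : R.map (Subfield.inclusion hle) - C (⟨b, hbF'⟩ : F') = 0 := by
    refine eq_zero_of_eval₂_eq_zero F' haF' (hle (hpF a)) _ ?_ ?_
    · refine (degree_sub_le _ _).trans_lt (max_lt ?_ ?_)
      · exact (degree_map_le).trans_lt hRdeg
      · refine degree_C_le.trans_lt ?_
        exact_mod_cast (Fact.out : p.Prime).pos
    · rw [eval₂_sub, eval₂_map, eval₂_C, hι, hR, Subfield.coe_subtype, sub_self]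
  have h := congrArg natDegree (sub_eq_zero.1 hQ)
  rw [natDegree_map, natDegree_C] at h
  exact hconst h

/-- The exchange step. -/
theorem pClosure_exchange {B : Set k} {a b : k} (hb : b ∈ B) (hBb : b ∉ pClosure p (B \ {b}))
    (ha : a ∉ pClosure p B) : b ∉ pClosure p (insert a B \ {b}) := by
  intro hmem
  have hrepr : ∀ (F : Subfield k), Set.range (frobenius k p) ⊆ F → B \ {b} ⊆ F →
      ∀ y ∈ Subring.closure (Set.range (frobenius k p) ∪ (insert a B \ {b})),
      ∃ P : F[X], P.eval₂ F.subtype a = y := by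
    intro F h1 h2 y hy
    refine (Subring.closure_le (t := (Polynomial.eval₂RingHom F.subtype a).range)).2 ?_ hy
    rintro z (hz | ⟨hz, hzb⟩)
    · exact ⟨C ⟨z, h1 hz⟩, by simp⟩
    · rcases hz with rfl | hz
      · exact ⟨X, by simp⟩
      · exact ⟨C ⟨z, h2 ⟨hz, hzb⟩⟩, by simp⟩
  obtain ⟨P, hP⟩ := hrepr (pClosure p (B \ {b})) (fun z hz => Subfield.subset_closure (Or.inl hz))
    (fun z hz => mem_pClosure_of_mem hz) b (mem_pClosure_iff.1 hmem)
  exact false_of_eval₂_eq _ (pClosure p B) (pClosure_mono Set.sdiff_subset)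
    (fun x => pow_mem_pClosure _ x) hBb (mem_pClosure_of_mem hb) ha P hP

theorem exists_pFree_spanning : ∃ B : Set k, PFree p B ∧ ∀ x, x ∈ pClosure p B := by
  obtain ⟨B, hB⟩ := zorn_subset {B : Set k | PFree p B} fun c hc hchain => by
    rcases c.eq_empty_or_nonempty with rfl | hne
    · exact ⟨∅, fun b hb => absurd hb (Set.notMem_empty b), by simp⟩
    refine ⟨⋃₀ c, ?_, fun s hs => Set.subset_sUnion_of_mem hs⟩
    intro b hb hmem
    obtain ⟨s, hs, hbs⟩ := hb
    rw [mem_pClosure_iff] at hmem
    have key : ∀ y ∈ Subring.closure (Set.range (frobenius k p) ∪ (⋃₀ c \ {b})),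
        ∃ t ∈ c, b ∈ t ∧ y ∈ pClosure p (t \ {b}) := by
      intro y hy
      have merge : ∀ {y z : k}, (∃ t ∈ c, b ∈ t ∧ y ∈ pClosure p (t \ {b})) →
          (∃ t ∈ c, b ∈ t ∧ z ∈ pClosure p (t \ {b})) →
          ∃ t ∈ c, b ∈ t ∧ y ∈ pClosure p (t \ {b}) ∧ z ∈ pClosure p (t \ {b}) := by
        rintro y z ⟨t, ht, hbt, hy⟩ ⟨t', ht', hbt', hz⟩
        rcases hchain.total ht ht' with h | h
        · exact ⟨t', ht', hbt', pClosure_mono (Set.sdiff_subset_sdiff_left h) hy, hz⟩
        · exact ⟨t, ht, hbt, hy, pClosure_mono (Set.sdiff_subset_sdiff_left h) hz⟩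
      induction hy using Subring.closure_induction with
      | mem z hz =>
        rcases hz with hz | ⟨⟨t, ht, hzt⟩, hzb⟩
        · exact ⟨s, hs, hbs, Subfield.subset_closure (Or.inl hz)⟩
        · rcases hchain.total hs ht with h | h
          · exact ⟨t, ht, h hbs, mem_pClosure_of_mem ⟨hzt, hzb⟩⟩
          · exact ⟨s, hs, hbs, mem_pClosure_of_mem ⟨h hzt, hzb⟩⟩
      | zero => exact ⟨s, hs, hbs, zero_mem _⟩
      | one => exact ⟨s, hs, hbs, one_mem _⟩
      | add y z _ _ hy hz =>
        obtain ⟨t, ht, hbt, hy, hz⟩ := merge hy hz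
        exact ⟨t, ht, hbt, add_mem hy hz⟩
      | neg y _ hy =>
        obtain ⟨t, ht, hbt, hy⟩ := hy
        exact ⟨t, ht, hbt, neg_mem hy⟩
      | mul y z _ _ hy hz =>
        obtain ⟨t, ht, hbt, hy, hz⟩ := merge hy hz
        exact ⟨t, ht, hbt, mul_mem hy hz⟩
    obtain ⟨t, ht, hbt, hb'⟩ := key b hmem
    exact hc ht b hbt hb'
  refine ⟨B, hB.prop, fun a => by_contra fun ha => ?_⟩
  have haB : a ∉ B := fun h => ha (mem_pClosure_of_mem h)
  have hins : PFree p (insert a B) := by
    intro b hb hmem
    rcases hb with rfl | hb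
    · refine ha (pClosure_mono ?_ hmem)
      rintro x ⟨hx, hxb⟩
      exact hx.resolve_left hxb
    exact pClosure_exchange hb (hB.prop b hb) ha hmem
  exact haB (hB.le_of_ge hins (Set.subset_insert a B) (Set.mem_insert a B))

/-- A ring homomorphism on the `p`-th powers and compatible values on a free generating set
extend. -/
theorem exists_extension {A : Type*} [CommRing A] {B : Set k} (hB : PFree p B)
    (hspan : ∀ x, x ∈ pClosure p B) (t : k →+* A) (v : k → A) (hv : ∀ b ∈ B, v b ^ p = t b) :
    ∃ s : k →+* A, (∀ x, s (x ^ p) = t x) ∧ ∀ b ∈ B, s b = v b := by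
  classical
  let gph : Set k → Subring (k × A) := fun S =>
    Subring.closure (Set.range (fun x : k => (x ^ p, t x)) ∪ (fun b => (b, v b)) '' S)
  have hfst : ∀ S, (gph S).map (RingHom.fst k A) =
      Subring.closure (Set.range (frobenius k p) ∪ S) := fun S => by
    rw [RingHom.map_closure, Set.image_union, ← Set.range_comp, Set.image_image]
    simp only [Function.comp_def, RingHom.coe_fst, Set.image_id']
    rfl
  have hinj : ∀ S : Finset k, (S : Set k) ⊆ B →
      ∀ z ∈ gph S, z.1 = 0 → z.2 = 0 := by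
    intro S
    induction S using Finset.induction_on with
    | empty =>
      intro _ z hz h0
      have hle : gph ((∅ : Finset k) : Set k) ≤ ((frobenius k p).prod t).range := by
        refine Subring.closure_le.2 ?_
        rintro z (⟨x, rfl⟩ | ⟨b, hb, -⟩)
        · exact ⟨x, by simp [frobenius_def]⟩
        · simp at hb
      obtain ⟨x, rfl⟩ := hle hz
      have hx : x = 0 := frobenius_inj k p (by simpa using h0)
      simp [hx]
    | insert b S hbS ih =>
      intro hsub z hz h0
      rw [Finset.coe_insert] at hsub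
      have hbB := hsub (Set.mem_insert _ _)
      have hS : (S : Set k) ⊆ B := (Set.subset_insert _ _).trans hsub
      set Γ := gph (S : Set k)
      obtain ⟨P, rfl⟩ : ∃ P : Γ[X], P.eval₂ Γ.subtype (b, v b) = z := by
        refine (Subring.closure_le
          (t := (Polynomial.eval₂RingHom Γ.subtype (b, v b)).range)).2 ?_ hz
        rintro w (hw | ⟨c, hc, rfl⟩)
        · exact ⟨C ⟨w, Subring.subset_closure (Or.inl hw)⟩, by simp⟩
        · rcases Finset.mem_insert.1 (Finset.mem_coe.1 hc) with rfl | hc
          · exact ⟨X, by simp⟩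
          · exact ⟨C ⟨(c, v c), Subring.subset_closure (Or.inr ⟨c, hc, rfl⟩)⟩, by simp⟩
      have hbb : ((b ^ p, t b) : k × A) ∈ Γ := Subring.subset_closure (Or.inl ⟨b, rfl⟩)
      cases subsingleton_or_nontrivial A with
      | inl h => exact Subsingleton.elim _ _
      | inr h =>
      have : Nontrivial Γ := ⟨⟨0, 1, fun e => zero_ne_one (α := A) (congrArg (fun w : Γ => w.1.2) e)⟩⟩
      set g : Γ[X] := X ^ p - C (⟨(b ^ p, t b), hbb⟩ : Γ) with hgdef
      have hg : g.Monic := monic_X_pow_sub_C _ (Fact.out : p.Prime).ne_zero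
      have hgb : g.eval₂ Γ.subtype (b, v b) = 0 := by
        simp [g, hv b hbB]
      rw [← modByMonic_add_div P g, eval₂_add, eval₂_mul, hgb, zero_mul, add_zero] at h0 ⊢
      have hdeg : (P %ₘ g).degree < (p : ℕ) := by
        rw [← degree_X_pow_sub_C (Fact.out : p.Prime).pos (⟨(b ^ p, t b), hbb⟩ : Γ)]
        exact degree_modByMonic_lt P hg
      set F := pClosure p (S : Set k)
      have hbF : b ∉ F := fun h => hB b hbB (pClosure_mono (fun x hx => by
        exact ⟨hS hx, fun e => hbS (Finset.mem_coe.1 (Set.mem_singleton_iff.1 e ▸ hx))⟩) h)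
      let π : Γ →+* F := ((RingHom.fst k A).comp Γ.subtype).codRestrict F fun w => by
        refine mem_pClosure_iff.2 ?_
        rw [← hfst]
        exact ⟨w, w.2, rfl⟩
      have hz' : (P %ₘ g).map π = 0 := by
        refine eq_zero_of_eval₂_eq_zero F hbF (pow_mem_pClosure _ b) _
          (degree_map_le.trans_lt hdeg) ?_
        rw [eval₂_map]
        exact ((hom_eval₂ (P %ₘ g) Γ.subtype (RingHom.fst k A) (b, v b)).symm).trans h0
      have : P %ₘ g = 0 := Polynomial.ext fun n => by
        have hn : ((P %ₘ g).coeff n : k × A).1 = 0 := by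
          have := congrArg (fun Q : F[X] => (Q.coeff n : k)) hz'
          simpa [π] using this
        exact Subtype.ext (Prod.ext hn (ih hS _ ((P %ₘ g).coeff n).2 hn))
      simp [this]
  set Γ := gph B
  have hfin : ∀ z ∈ Γ, ∃ S : Finset k, (S : Set k) ⊆ B ∧ z ∈ gph S := by
    intro z hz
    have mono : ∀ {S T : Finset k}, S ⊆ T → gph (S : Set k) ≤ gph T := fun h =>
      Subring.closure_mono (Set.union_subset_union_right _ (Set.image_mono (Finset.coe_subset.2 h)))
    induction hz using Subring.closure_induction with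
    | mem z hz =>
      rcases hz with hz | ⟨b, hb, rfl⟩
      · exact ⟨∅, by simp, Subring.subset_closure (Or.inl hz)⟩
      · exact ⟨{b}, by simpa using hb, Subring.subset_closure (Or.inr ⟨b, by simp, rfl⟩)⟩
    | zero => exact ⟨∅, by simp, zero_mem _⟩
    | one => exact ⟨∅, by simp, one_mem _⟩
    | add x y _ _ hx hy =>
      obtain ⟨S, hS, hx⟩ := hx
      obtain ⟨T, hT, hy⟩ := hy
      exact ⟨S ∪ T, by simp [hS, hT], add_mem (mono Finset.subset_union_left hx)
        (mono Finset.subset_union_right hy)⟩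
    | neg x _ hx =>
      obtain ⟨S, hS, hx⟩ := hx
      exact ⟨S, hS, neg_mem hx⟩
    | mul x y _ _ hx hy =>
      obtain ⟨S, hS, hx⟩ := hx
      obtain ⟨T, hT, hy⟩ := hy
      exact ⟨S ∪ T, by simp [hS, hT], mul_mem (mono Finset.subset_union_left hx)
        (mono Finset.subset_union_right hy)⟩
  let π : Γ →+* k := (RingHom.fst k A).comp Γ.subtype
  have hbij : Function.Bijective π := by
    refine ⟨(injective_iff_map_eq_zero π).2 fun z hz => ?_, fun x => ?_⟩
    · obtain ⟨S, hS, hzS⟩ := hfin z z.2
      exact Subtype.ext (Prod.ext hz (hinj S hS _ hzS hz))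
    · have hx := mem_pClosure_iff.1 (hspan x)
      rw [← hfst] at hx
      obtain ⟨w, hw, rfl⟩ := hx
      exact ⟨⟨w, hw⟩, rfl⟩
  let e := RingEquiv.ofBijective π hbij
  refine ⟨(RingHom.snd k A).comp (Γ.subtype.comp e.symm.toRingHom), fun x => ?_, fun b hb => ?_⟩
  · have : e.symm (x ^ p) = ⟨(x ^ p, t x), Subring.subset_closure (Or.inl ⟨x, rfl⟩)⟩ :=
      (RingEquiv.symm_apply_eq e).2 rfl
    simp [this]
  · have : e.symm b = ⟨(b, v b), Subring.subset_closure (Or.inr ⟨b, hb, rfl⟩)⟩ :=
      (RingEquiv.symm_apply_eq e).2 rfl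
    simp [this]

/-- Two homomorphisms agreeing on `p`-th powers and on a generating set are equal. -/
theorem ringHom_ext_of_pClosure {A : Type*} [CommRing A] {B : Set k}
    (hspan : ∀ x, x ∈ pClosure p B) {f g : k →+* A} (h₁ : ∀ x, f (x ^ p) = g (x ^ p))
    (h₂ : ∀ b ∈ B, f b = g b) : f = g := by
  refine RingHom.ext fun x => ?_
  have hle : Subring.closure (Set.range (frobenius k p) ∪ B) ≤ f.eqLocus g :=
    Subring.closure_le.2 (by
      rintro z (⟨y, rfl⟩ | hz)
      · exact h₁ y
      · exact h₂ z hz)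
  exact hle (mem_pClosure_iff.1 (hspan x))

end Field

section Lift

variable {R : Type*} [CommRing R] [IsLocalRing R] {p : ℕ} [Fact p.Prime] [CharP R p]

/-- A lift of an element of the residue field. -/
def resLift (x : ResidueField R) : R := (residue_surjective x).choose

theorem residue_resLift (x : ResidueField R) : residue R (resLift x) = x :=
  (residue_surjective x).choose_spec

/-- Powers `p ^ i` with `i ≥ N` only depend on the residue modulo `m ^ N`. -/
theorem pow_sub_pow_mem {N i : ℕ} (hi : N ≤ p ^ i) {a a' : R}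
    (h : residue R a = residue R a') : a ^ p ^ i - a' ^ p ^ i ∈ maximalIdeal R ^ N := by
  rw [← sub_pow_char_pow (p := p) a a']
  exact Ideal.pow_le_pow_right hi
    (Ideal.pow_mem_pow ((residue_eq_zero_iff _).1 (by rw [map_sub, h, sub_self])) _)

variable (p) in
/-- Twisted sections: `x ↦ (lift x) ^ (p ^ j)` made additive and multiplicative. -/
def IsTwistedSection (B : Set (ResidueField R)) (N j : ℕ)
    (s : ResidueField R →+* R ⧸ maximalIdeal R ^ N) : Prop :=
  (∀ x, s (x ^ p ^ (N - j)) = Ideal.Quotient.mk _ (resLift x ^ p ^ N)) ∧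
    ∀ b ∈ B, s b = Ideal.Quotient.mk _ (resLift b ^ p ^ j)

theorem exists_twistedSection {B : Set (ResidueField R)} (hB : PFree p B)
    (hspan : ∀ x, x ∈ pClosure p B) (N : ℕ) : ∀ d ≤ N,
      ∃ s, IsTwistedSection p B N (N - d) s := by
  intro d
  induction d with
  | zero =>
    intro _
    refine ⟨teichmullerAux p N, fun x => ?_, fun b _ => ?_⟩
    · rw [Nat.sub_zero, Nat.sub_self, pow_zero, pow_one]
      conv_lhs => rw [← residue_resLift x]
      exact teichmullerAux_residue N _
    · conv_lhs => rw [← residue_resLift b]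
      exact teichmullerAux_residue N _
  | succ d ih =>
    intro hd
    obtain ⟨s, hs₁, hs₂⟩ := ih (by omega)
    obtain ⟨s', h₁, h₂⟩ := exists_extension hB hspan s
      (fun b => Ideal.Quotient.mk (maximalIdeal R ^ N) (resLift b ^ p ^ (N - (d + 1))))
      (fun b hb => by
        rw [hs₂ b hb, ← map_pow, ← pow_mul, ← pow_succ, show N - (d + 1) + 1 = N - d by omega])
    refine ⟨s', fun x => ?_, h₂⟩
    rw [show N - (N - (d + 1)) = N - (N - d) + 1 by omega, pow_succ', mul_comm, pow_mul, h₁]
    exact hs₁ x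

/-- Every complete local ring of characteristic `p` has a coefficient field. -/
theorem exists_coefficientField' (R : Type*) [CommRing R] [IsLocalRing R] (p : ℕ) [Fact p.Prime]
    [CharP R p] [IsAdicComplete (maximalIdeal R) R] :
    ∃ σ : ResidueField R →+* R, ∀ a, residue R (σ a) = a := by
  obtain ⟨B, hB, hspan⟩ := exists_pFree_spanning (k := ResidueField R) (p := p)
  choose f hf₁ hf₂ using fun N => exists_twistedSection hB hspan N N le_rfl
  simp only [Nat.sub_self, Nat.sub_zero, pow_zero, pow_one] at hf₁ hf₂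
  have huniq : ∀ {N : ℕ} (g : ResidueField R →+* R ⧸ maximalIdeal R ^ N),
      (∀ b ∈ B, g b = Ideal.Quotient.mk _ (resLift b)) → ∀ i,
      (∀ x, g (x ^ p ^ i) = f N (x ^ p ^ i)) → g = f N := by
    intro N g hg i
    induction i with
    | zero => intro h; exact RingHom.ext fun x => by simpa using h x
    | succ i ih =>
      intro h
      refine ih fun x => ?_
      have := RingHom.congr_fun (ringHom_ext_of_pClosure hspan
        (f := g.comp (iterateFrobenius (ResidueField R) p i))
        (g := (f N).comp (iterateFrobenius (ResidueField R) p i)) (fun y => ?_) fun b hb => ?_) x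
      · simpa [iterateFrobenius_def] using this
      · simpa [iterateFrobenius_def, ← pow_mul, ← pow_succ, ← pow_succ', mul_comm] using h y
      · simp [iterateFrobenius_def, map_pow, hg b hb, hf₂ N b hb]
  have hcomp : ∀ {M N : ℕ} (hle : M ≤ N),
      (Ideal.Quotient.factorPow (maximalIdeal R) hle).comp (f N) = f M := by
    intro M N hle
    refine huniq _ (fun b hb => by rw [RingHom.comp_apply, hf₂ N b hb, factorPow_mk]) N
      fun x => ?_
    rw [RingHom.comp_apply, hf₁, factorPow_mk]
    obtain ⟨d, rfl⟩ := Nat.exists_eq_add_of_le hle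
    rw [show M + d = d + M by omega, pow_add, pow_mul x, hf₁, Ideal.Quotient.eq, pow_mul]
    refine pow_sub_pow_mem (Nat.lt_pow_self (Fact.out : p.Prime).one_lt).le ?_
    simp [map_pow, residue_resLift]
  refine ⟨IsAdicComplete.liftRingHom (maximalIdeal R) f hcomp, ?_⟩
  let L := IsAdicComplete.liftRingHom (maximalIdeal R) f hcomp
  have hL : ∀ N a, Ideal.Quotient.mk (maximalIdeal R ^ N) (L a) = f N a :=
    IsAdicComplete.mk_liftRingHom (maximalIdeal R) f hcomp
  suffices h : (residue R).comp L = RingHom.id _ from fun a => RingHom.congr_fun h a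
  have hres : ∀ a b, Ideal.Quotient.mk (maximalIdeal R ^ 1) a =
      Ideal.Quotient.mk (maximalIdeal R ^ 1) b → residue R a = residue R b := fun a b h => by
    rw [Ideal.Quotient.eq, pow_one] at h
    rwa [← sub_eq_zero, ← map_sub, residue_eq_zero_iff]
  refine ringHom_ext_of_pClosure hspan (fun x => ?_) fun b hb => ?_
  · have := hres (L (x ^ p ^ 1)) (resLift x ^ p ^ 1) (by rw [hL, hf₁])
    simpa [residue_resLift] using this
  · have := hres (L b) (resLift b) (by rw [hL, hf₂ 1 b hb])
    simpa [residue_resLift] using this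

/-- Coefficient maps out of a perfect field are unique, hence compatible with local maps. -/
theorem coefficient_unique {k : Type*} [Field k] [CharP k p] [PerfectRing k p]
    [IsHausdorff (maximalIdeal R) R] {f g : k →+* R}
    (h : ∀ a, residue R (f a) = residue R (g a)) : f = g := by
  refine RingHom.ext fun a => sub_eq_zero.1 (IsHausdorff.haus' (I := maximalIdeal R) _ fun N => ?_)
  obtain ⟨c, rfl⟩ := (iterateFrobeniusEquiv k p N).surjective a
  rw [SModEq.zero, smul_eq_mul, Ideal.mul_top, iterateFrobeniusEquiv_def, map_pow, map_pow]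
  exact pow_sub_pow_mem (Nat.lt_pow_self (Fact.out : p.Prime).one_lt).le (h c)

end Lift

end Vale.Agent.P202
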