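import Vale.Agent.P202.RingSide.Complete

/-!
# P202 Reduce: power series over a bigger field are flat over power series

Proved with the equational criterion: coordinates with respect to a basis of the bigger field, and
the Artin–Rees lemma to keep only finitely many coordinates in each degree.
-/

noncomputable section

namespace Vale.Agent.P202

open IsLocalRing

variable {K L : Type*} [Field K] [Field L] [Algebra K L] {n : ℕ}

/-- The map of power series rings induced by a field extension. -/
abbrev scalarExt (K L : Type*) [Field K] [Field L] [Algebra K L] (n : ℕ) :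
    MvPowerSeries (Fin n) K →+* MvPowerSeries (Fin n) L :=
  MvPowerSeries.map (algebraMap K L)

theorem coeff_eq_zero_of_mem_pow {ι k : Type*} [Finite ι] [Field k] {F : MvPowerSeries ι k}
    {N : ℕ} (hF : F ∈ maximalIdeal (MvPowerSeries ι k) ^ N) :
    ∀ t : ι →₀ ℕ, t.degree < N → MvPowerSeries.coeff t F = 0 := by
  classical
  induction N generalizing F with
  | zero => intro t ht; omega
  | succ N ih =>
    rw [pow_succ'] at hF
    refine Submodule.mul_induction_on hF (fun a ha b hb t ht => ?_) fun a b ha hb t ht => ?_
    · rw [MvPowerSeries.coeff_mul]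
      refine Finset.sum_eq_zero fun q hq => ?_
      rcases eq_or_ne q.1 0 with h | h
      · have ha0 : MvPowerSeries.constantCoeff a = 0 := by
          by_contra h0
          exact (mem_maximalIdeal a).1 ha
            (MvPowerSeries.isUnit_iff_constantCoeff.2 (IsUnit.mk0 _ h0))
        rw [h, MvPowerSeries.coeff_zero_eq_constantCoeff_apply, ha0, zero_mul]
      · rw [ih hb q.2 ?_, mul_zero]
        have hsum : q.1.degree + q.2.degree = t.degree := by
          rw [← map_add, Finset.HasAntidiagonal.mem_antidiagonal.1 hq]
        have : q.1.degree ≠ 0 := fun h0 => h ((Finsupp.degree_eq_zero_iff _).1 h0)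
        omega
    · rw [map_add, ha t ht, hb t ht, add_zero]

theorem mem_maximalIdeal_pow_iff {ι k : Type*} [Finite ι] [Field k] {F : MvPowerSeries ι k}
    {N : ℕ} : F ∈ maximalIdeal (MvPowerSeries ι k) ^ N ↔
      ∀ t : ι →₀ ℕ, t.degree < N → MvPowerSeries.coeff t F = 0 := by
  refine ⟨coeff_eq_zero_of_mem_pow, fun h => ?_⟩
  rw [maximalIdeal_mvPowerSeries]
  exact mem_span_X_pow h

theorem pi_mem_smul_top {R : Type*} [CommRing R] (J : Ideal R) {ι : Type*} [Fintype ι]
    {y : ι → R} : y ∈ (J • ⊤ : Submodule R (ι → R)) ↔ ∀ i, y i ∈ J := by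
  classical
  constructor
  · intro hy i
    refine Submodule.smul_induction_on hy (fun a ha z _ => J.mul_mem_right _ ha) fun a b ha hb => ?_
    exact J.add_mem ha hb
  · intro h
    rw [pi_eq_sum_univ y]
    exact Submodule.sum_mem _ fun i _ => Submodule.smul_mem_smul (h i) Submodule.mem_top

/-- Coefficientwise coordinate with respect to a basis of the bigger field. -/
def coord {β : Type*} (b : Module.Basis β K L) (i : β) (g : MvPowerSeries (Fin n) L) :
    MvPowerSeries (Fin n) K :=
  fun e => b.repr (MvPowerSeries.coeff e g) i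

theorem coeff_coord {β : Type*} (b : Module.Basis β K L) (i : β) (g : MvPowerSeries (Fin n) L)
    (e : Fin n →₀ ℕ) : MvPowerSeries.coeff e (coord b i g) = b.repr (MvPowerSeries.coeff e g) i :=
  rfl

theorem coord_add {β : Type*} (b : Module.Basis β K L) (i : β)
    (g g' : MvPowerSeries (Fin n) L) : coord b i (g + g') = coord b i g + coord b i g' := by
  ext e
  simp [coeff_coord]

theorem coord_sum {β γ : Type*} (b : Module.Basis β K L) (i : β) (s : Finset γ)
    (g : γ → MvPowerSeries (Fin n) L) : coord b i (∑ j ∈ s, g j) = ∑ j ∈ s, coord b i (g j) := by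
  ext e
  simp [coeff_coord, map_sum, Finsupp.finset_sum_apply]

theorem coord_mul {β : Type*} (b : Module.Basis β K L) (i : β) (f : MvPowerSeries (Fin n) K)
    (g : MvPowerSeries (Fin n) L) :
    coord b i (scalarExt K L n f * g) = f * coord b i g := by
  classical
  ext e
  simp only [coeff_coord, MvPowerSeries.coeff_mul, map_sum, Finsupp.finset_sum_apply,
    MvPowerSeries.coeff_map]
  refine Finset.sum_congr rfl fun q _ => ?_
  rw [← Algebra.smul_def, map_smul, Finsupp.smul_apply, smul_eq_mul]

theorem ext_coord {β : Type*} (b : Module.Basis β K L) {g g' : MvPowerSeries (Fin n) L}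
    (h : ∀ i, coord b i g = coord b i g') : g = g' := by
  ext e
  refine b.repr.injective (Finsupp.ext fun i => ?_)
  have := congrArg (MvPowerSeries.coeff e) (h i)
  simpa [coeff_coord] using this

variable (K L n) in
/-- Power series over a field extension are flat over power series. -/
theorem flat_scalarExt : (scalarExt K L n).Flat := by
  classical
  let := (scalarExt K L n).toAlgebra
  show Module.Flat (MvPowerSeries (Fin n) K) (MvPowerSeries (Fin n) L)
  refine Module.Flat.of_forall_isTrivialRelation fun {l f x} hx => ?_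
  set m := maximalIdeal (MvPowerSeries (Fin n) K)
  let b := Module.Basis.ofVectorSpace K L
  let S : Submodule (MvPowerSeries (Fin n) K) (Fin l → (MvPowerSeries (Fin n) K)) := LinearMap.ker (∑ j, f j • (LinearMap.proj j : (Fin l → (MvPowerSeries (Fin n) K)) →ₗ[(MvPowerSeries (Fin n) K)] (MvPowerSeries (Fin n) K)))
  obtain ⟨k, s, hs⟩ : ∃ (k : ℕ) (s : Fin k → (Fin l → (MvPowerSeries (Fin n) K))), Submodule.span (MvPowerSeries (Fin n) K) (Set.range s) = S :=
    Submodule.fg_iff_exists_fin_generating_family.1 (IsNoetherian.noetherian S)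
  obtain ⟨c, hc⟩ := m.exists_pow_inf_eq_pow_smul S
  have hsol : ∀ v ∈ S, ∃ a : Fin k → (MvPowerSeries (Fin n) K), ∑ q, a q • s q = v ∧
      ∀ N, (∀ j, v j ∈ m ^ (N + c)) → ∀ q, a q ∈ m ^ N := by
    intro v hv
    by_cases h0 : v = 0
    · exact ⟨0, by simp [h0], fun N _ q => zero_mem _⟩
    have hex : ∃ N, ¬ ∀ j, v j ∈ m ^ (N + c) := by
      by_contra hall
      simp only [not_exists, not_not] at hall
      refine h0 (funext fun j => ?_)
      refine IsHausdorff.haus' (I := m) _ fun N => ?_
      rw [SModEq.zero, smul_eq_mul, Ideal.mul_top]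
      exact Ideal.pow_le_pow_right (Nat.le_add_right N c) (hall N j)
    obtain ⟨a₀, ha₀⟩ := (Submodule.mem_span_range_iff_exists_fun (MvPowerSeries (Fin n) K)).1 (hs ▸ hv)
    rcases Nat.eq_zero_or_pos (Nat.find hex) with hz | hpos
    · refine ⟨a₀, ha₀, fun N hN q => ?_⟩
      refine absurd (fun j => ?_) (Nat.find_spec hex)
      exact Ideal.pow_le_pow_right (by omega) (hN j)
    · have hlast : ∀ j, v j ∈ m ^ (Nat.find hex - 1 + c) := not_not.1 (Nat.find_min hex (by omega))
      have hmem : v ∈ m ^ (Nat.find hex - 1 + c - c) • S := by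
        have hle : m ^ (Nat.find hex - 1 + c - c) • (m ^ c • ⊤ ⊓ S) ≤
            m ^ (Nat.find hex - 1 + c - c) • S := Submodule.smul_mono le_rfl inf_le_right
        refine hle ?_
        rw [← hc _ (Nat.le_add_left c _)]
        exact ⟨(pi_mem_smul_top _).2 hlast, hv⟩
      rw [Nat.add_sub_cancel, ← hs, Submodule.mem_ideal_smul_span_iff_exists_sum] at hmem
      obtain ⟨a, ha, hav⟩ := hmem
      refine ⟨a, by simpa [Finsupp.sum_fintype] using hav, fun N hN q => ?_⟩
      have : N < Nat.find hex := by
        by_contra hle
        refine Nat.find_spec hex fun j => Ideal.pow_le_pow_right (by omega) (hN j)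
      exact Ideal.pow_le_pow_right (by omega) (ha q)
  have hv : ∀ i, (fun j => coord b i (x j)) ∈ S := by
    intro i
    have h := congrArg (coord b i) hx
    simp only [coord_sum, Algebra.smul_def, RingHom.algebraMap_toAlgebra, coord_mul] at h
    simp only [S, LinearMap.mem_ker, LinearMap.sum_apply, LinearMap.smul_apply,
      LinearMap.proj_apply, smul_eq_mul]
    rw [h]
    ext e
    simp [coeff_coord]
  choose a ha₁ ha₂ using fun i => hsol _ (hv i)
  have hfin : ∀ (q : Fin k) (e : Fin n →₀ ℕ),
      (Function.support fun i => MvPowerSeries.coeff e (a i q)).Finite := by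
    intro q e
    have hdeg : Set.Finite {t : Fin n →₀ ℕ | t.degree < e.degree + 1 + c} :=
      (Finsupp.finite_of_degree_le (e.degree + c)).subset fun t ht => by
        simp only [Set.mem_setOf_eq] at ht ⊢
        omega
    refine ((Set.finite_univ.prod hdeg).biUnion fun jt _ =>
      (b.repr (MvPowerSeries.coeff jt.2 (x jt.1))).support.finite_toSet).subset fun i hi => ?_
    simp only [Function.mem_support] at hi
    by_contra hnot
    refine hi (coeff_eq_zero_of_mem_pow (ha₂ i (e.degree + 1) (fun j => ?_) q) e (by omega))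
    rw [mem_maximalIdeal_pow_iff]
    intro t ht
    by_contra hne
    exact hnot (Set.mem_biUnion (x := (j, t)) ⟨Set.mem_univ _, ht⟩
      (Finset.mem_coe.2 (Finsupp.mem_support_iff.2 (by simpa [coeff_coord] using hne))))
  let y : Fin k → MvPowerSeries (Fin n) L := fun q e =>
    b.repr.symm (Finsupp.ofSupportFinite (fun i => MvPowerSeries.coeff e (a i q)) (hfin q e))
  have hy : ∀ i q, coord b i (y q) = a i q := fun i q => by
    ext e
    rw [coeff_coord]
    show b.repr (b.repr.symm _) i = _
    rw [LinearEquiv.apply_symm_apply]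
    rfl
  refine ⟨k, fun j q => s q j, y, fun j => ?_, fun q => ?_⟩
  · refine ext_coord b fun i => ?_
    rw [coord_sum]
    simp only [Algebra.smul_def, RingHom.algebraMap_toAlgebra, coord_mul, hy]
    have := congrFun (ha₁ i) j
    simp only [Finset.sum_apply, Pi.smul_apply, smul_eq_mul] at this
    rw [← this]
    exact Finset.sum_congr rfl fun q _ => mul_comm _ _
  · have : s q ∈ S := hs ▸ Submodule.subset_span (Set.mem_range_self q)
    simpa [S] using this

end Vale.Agent.P202
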